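import Vale.Agent.P247.H574.Sta2

/-!
# P247, Stage 2, part S2: definitions

Spinors on `T⁴` with values in the line bundle of degree one over the first two coordinates, the
quaternionic frame of a hypersymplectic triple, and the Seiberg-Witten system.
-/

open scoped ContDiff Topology
open Set MeasureTheory Filter Metric

noncomputable section

namespace Vale.Agent.P247.H647

open Vale.Agent.P247.H74 Vale.Agent.P247.H574

/-! ## Constant algebra -/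

/-- the spinor space -/
abbrev Sp : Type := EuclideanSpace ℂ (Fin 2)

/-- endomorphisms of the spinor space -/
abbrev En : Type := Sp →L[ℂ] Sp

/-- the Pauli matrices -/
def pauM : Fin 3 → Matrix (Fin 2) (Fin 2) ℂ :=
  ![!![0, 1; 1, 0], !![0, -Complex.I; Complex.I, 0], !![1, 0; 0, -1]]

/-- the matrices `1, i P₁, i P₂, i P₃` -/
def sigM : Fin 4 → Matrix (Fin 2) (Fin 2) ℂ :=
  ![1, Complex.I • pauM 0, Complex.I • pauM 1, Complex.I • pauM 2]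

/-- a matrix as an operator on spinors -/
def opM (M : Matrix (Fin 2) (Fin 2) ℂ) : En := Matrix.toEuclideanCLM (n := Fin 2) (𝕜 := ℂ) M

def pau (k : Fin 3) : En := opM (pauM k)
def sig (a : Fin 4) : En := opM (sigM a)

/-- the three standard self-dual forms `θ⁰∧θᵏ + θˡ∧θᵐ` -/
def omM : Fin 3 → Matrix (Fin 4) (Fin 4) ℝ :=
  ![!![0, 1, 0, 0; -1, 0, 0, 0; 0, 0, 0, 1; 0, 0, -1, 0],
    !![0, 0, 1, 0; 0, 0, 0, -1; -1, 0, 0, 0; 0, 1, 0, 0],
    !![0, 0, 0, 1; 0, 0, 1, 0; 0, -1, 0, 0; -1, 0, 0, 0]]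

/-- `Φ₀ₖ + Φₗₘ` for an array `Φ` -/
def hat (Φ : Fin 4 → Fin 4 → ℝ) : Fin 3 → ℝ :=
  ![Φ 0 1 + Φ 2 3, Φ 0 2 + Φ 3 1, Φ 0 3 + Φ 1 2]

/-- the wedge product of two arrays, as a multiple of `θ⁰¹²³` -/
def wdA (Φ Ψ : Fin 4 → Fin 4 → ℝ) : ℝ :=
  Φ 0 1 * Ψ 2 3 - Φ 0 2 * Ψ 1 3 + Φ 0 3 * Ψ 1 2 + Φ 1 2 * Ψ 0 3 - Φ 1 3 * Ψ 0 2 + Φ 2 3 * Ψ 0 1

/-- the components of a two-form in a frame -/
def fr (b : Fin 4 → R4) (Φ : R4 → R4 → ℝ) : Fin 4 → Fin 4 → ℝ := fun a c => Φ (b a) (b c)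

/-- the Euclidean length in `ℝ³` -/
def len (v : Fin 3 → ℝ) : ℝ := Real.sqrt (∑ k, v k ^ 2)

/-! ## Periodicity, connections -/

/-- `ℤ⁴`-periodic -/
def Per4 {E : Type*} (g : R4 → E) : Prop := ∀ (n : Fin 4 → ℤ) (x : R4), g (tr n x) = g x

/-- sections of `L`, or of `L` times a constant vector space -/
def QS {E : Type*} [NormedAddCommGroup E] [NormedSpace ℂ E] (s : R4 → E) : Prop :=
  ∀ (k : Fin 4 → ℤ) (x : R4), s (tr k x) = Complex.exp (2 * Real.pi * Complex.I * k 0 * x 1) • s x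

/-- connections on `L` -/
def QA (A : R4 → R4 →L[ℝ] ℝ) : Prop := ∀ (k : Fin 4 → ℤ) (x : R4),
  A (tr k x) = A x + (2 * Real.pi * k 0) • (ContinuousLinearMap.proj 1 : R4 →L[ℝ] ℝ)

/-- the covariant derivative `d - i A` -/
def cov {E : Type*} [NormedAddCommGroup E] [NormedSpace ℂ E] (A : R4 → R4 →L[ℝ] ℝ) (s : R4 → E)
    (x u : R4) : E := fderiv ℝ s x u - (Complex.I * (A x u : ℂ)) • s x

/-- the unit cube -/
def cube : Set R4 := Icc 0 1

/-- bounds for a function and its first two derivatives -/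
def Bd {E : Type*} [NormedAddCommGroup E] [NormedSpace ℝ E] (M : ℝ) (g : R4 → E) : Prop :=
  ∀ x, ‖g x‖ ≤ M ∧ ‖fderiv ℝ g x‖ ≤ M ∧ ‖fderiv ℝ (fderiv ℝ g) x‖ ≤ M

/-! ## The frame -/

/-- the triple `om, η₀, η₁` -/
def tri (D : Data) : Fin 3 → CForm := ![D.om, D.η 0, D.η 1]

/-- a periodic frame `b` of determinant one in which the triple is a combination of the standard
self-dual forms, with an invertible matrix `T` of coefficients -/
structure Quat (D : Data) where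
  b : Fin 4 → R4 → R4
  b_smooth : ∀ a, ContDiff ℝ ∞ (b a)
  b_per : ∀ a, Per4 (b a)
  b_det : ∀ x, Matrix.det (Matrix.of fun i a => b a x i) = 1
  T : R4 → Matrix (Fin 3) (Fin 3) ℝ
  T_smooth : ∀ j k, ContDiff ℝ ∞ fun x => T x j k
  T_per : ∀ j k, Per4 fun x => T x j k
  T_det : ∀ x, (T x).det ≠ 0
  tri_b : ∀ x j a c, (tri D j).val x (b a x) (b c x) = ∑ k, T x j k * omM k a c

variable {D : Data} (Q : Quat D)

/-- `T⁻¹ v` -/
def Quat.dv (x : R4) (v : Fin 3 → ℝ) : Fin 3 → ℝ := (Q.T x)⁻¹.mulVec v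

/-- `ρ = 2 |T⁻¹ v|` -/
def Quat.rho (v : Fin 3 → ℝ) (x : R4) : ℝ := 2 * len (Q.dv x v)

/-- the principal part of the Dirac operator -/
def Quat.dirac (A : R4 → R4 →L[ℝ] ℝ) (ψ : R4 → Sp) (x : R4) : Sp :=
  ∑ a, sig a (cov A ψ x (Q.b a x))

/-- the self-dual components of the curvature, in the frame -/
def Quat.Fh (A : R4 → R4 →L[ℝ] ℝ) (x : R4) : Fin 3 → ℝ :=
  hat (fr (fun a => Q.b a x) (fun u v => dd A x u v))

/-- the Seiberg-Witten system with free perturbation vector `v` -/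
structure SW (Z : R4 → En) (A : R4 → R4 →L[ℝ] ℝ) (ψ : R4 → Sp) (v : Fin 3 → ℝ) : Prop where
  A_smooth : ContDiff ℝ ∞ A
  ψ_smooth : ContDiff ℝ ∞ ψ
  A_quasi : QA A
  ψ_quasi : QS ψ
  dirac : ∀ x, Q.dirac A ψ x + Z x (ψ x) = 0
  curv : ∀ x j, w4 (fun p q => dd A x p q) (fun p q => (tri D j).val x p q) =
    v j - (1 / 2) * ∑ k, Q.T x j k * (inner ℂ (ψ x) (pau k (ψ x))).re

/-- a solution written in eigenspinors of the direction `T⁻¹ u`, with bounds `M` for all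
coefficients: `ψ = √r (α f₊ + β f₋)` -/
structure Sol (M r : ℝ) (u : Fin 3 → ℝ) where
  fp : R4 → Sp
  fm : R4 → Sp
  /-- the zero order term acting on `β` -/
  zm : R4 → Sp
  /-- the bounded correction of the curvature equation -/
  κ : R4 → Fin 3 → ℝ
  a : R4 → R4 →L[ℝ] ℝ
  α : R4 → ℂ
  β : R4 → ℂ
  r_pos : 0 < r
  u_unit : len u = 1
  fp_smooth : ContDiff ℝ ∞ fp
  fm_smooth : ContDiff ℝ ∞ fm
  zm_smooth : ContDiff ℝ ∞ zm
  κ_cont : Continuous κ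
  a_smooth : ContDiff ℝ ∞ a
  α_smooth : ContDiff ℝ ∞ α
  β_smooth : ContDiff ℝ ∞ β
  fp_per : Per4 fp
  fm_per : Per4 fm
  zm_per : Per4 zm
  κ_per : Per4 κ
  a_quasi : QA a
  α_quasi : QS α
  β_quasi : QS β
  fp_bd : Bd M fp
  fm_bd : Bd M fm
  zm_bd : Bd M zm
  κ_bd : ∀ x j, |κ x j| ≤ M
  fp_norm : ∀ x, ‖fp x‖ ^ 2 = Q.rho u x
  fm_norm : ∀ x, ‖fm x‖ ^ 2 = Q.rho u x
  fp_eig : ∀ x, ∑ k, (Q.dv x u k : ℂ) • pau k (fp x) = (Q.rho u x / 2 : ℂ) • fp x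
  fm_eig : ∀ x, ∑ k, (Q.dv x u k : ℂ) • pau k (fm x) = -(Q.rho u x / 2 : ℂ) • fm x
  dirac : ∀ x, ∑ c, sig c (cov a α x (Q.b c x) • fp x + cov a β x (Q.b c x) • fm x)
    + β x • zm x = 0
  curv : ∀ x j, w4 (fun p q => dd a x p q) (fun p q => (tri D j).val x p q) =
    r * (u j - (1 / 2) * ∑ k, Q.T x j k * (inner ℂ (α x • fp x + β x • fm x)
      (pau k (α x • fp x + β x • fm x))).re) + κ x j
  max : ∀ x, ‖α x‖ ^ 2 + ‖β x‖ ^ 2 ≤ 1 + M / r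

end Vale.Agent.P247.H647
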