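import Vale.Agent.P247.H647.Defs

/-!
# P247, Stage 2, part S2: statements of the packages

From solutions of the Seiberg-Witten system with large perturbation to `Higgs D`.
-/

open scoped ContDiff Topology
open Set MeasureTheory Filter Metric

noncomputable section

namespace Vale.Agent.P247.H647

open Vale.Agent.P247.H74 Vale.Agent.P247.H574

/-! ## S1 and S2 as a whole -/

/-- S1: for some frame and some zero order term there are solutions of arbitrary size. -/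
def S1_statement : Prop := ∀ D : Data, Good D → ∃ (Q : Quat D) (Z : R4 → En), ContDiff ℝ ∞ Z ∧
  Per4 Z ∧ ∀ R : ℝ, ∃ (A : R4 → R4 →L[ℝ] ℝ) (ψ : R4 → Sp) (v : Fin 3 → ℝ), SW Q Z A ψ v ∧
    R ≤ ∫ x in cube, ‖ψ x‖ ^ 2

/-- S2 -/
def S2_statement : Prop := ∀ D : Data, Good D → ∀ (Q : Quat D) (Z : R4 → En), ContDiff ℝ ∞ Z →
  Per4 Z → (∀ R : ℝ, ∃ (A : R4 → R4 →L[ℝ] ℝ) (ψ : R4 → Sp) (v : Fin 3 → ℝ), SW Q Z A ψ v ∧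
    R ≤ ∫ x in cube, ‖ψ x‖ ^ 2) → Nonempty (Higgs D)

/-! ## `FRM`: linear algebra of the frame -/

/-- wedge products in the frame, and the complex structure `D.J` -/
def FRM_statement : Prop := ∀ (D : Data) (Q : Quat D) (x : R4),
  (∀ Φ Ψ : F2, (∀ p, Φ p p = 0) → (∀ p, Ψ p p = 0) →
    w4 (fun p q => Φ p q) (fun p q => Ψ p q) =
      wdA (fr (fun a => Q.b a x) fun p q => Φ p q) (fr (fun a => Q.b a x) fun p q => Ψ p q)) ∧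
  (∀ Φ : F2, (∀ p, Φ p p = 0) → ∀ j, w4 (fun p q => Φ p q) (fun p q => (tri D j).val x p q) =
    ∑ k, Q.T x j k * hat (fr (fun a => Q.b a x) fun p q => Φ p q) k) ∧
  (∀ a, len (Q.dv x (Pi.single 0 1)) • D.J x (Q.b a x) =
    ∑ c, (∑ k, Q.dv x (Pi.single 0 1) k * omM k a c) • Q.b c x)

/-! ## `ALG`: constant pointwise algebra -/

/-- `∑ ζₐ σₐ` -/
def symb (ζ : Fin 4 → ℂ) : En := ∑ a, ζ a • sig a

/-- the Jacobian array of `ζ` -/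
def jz (ζ : Fin 4 → ℂ) : Fin 4 → Fin 4 → ℝ := fun a c => 2 * ((starRingEnd ℂ) (ζ a) * ζ c).im

/-- an array is positive on the complex lines of the direction `n` -/
def PosA (n : Fin 3 → ℝ) (φ : Fin 4 → Fin 4 → ℝ) : Prop :=
  ∀ u : Fin 4 → ℝ, 0 ≤ ∑ a, ∑ c, ∑ d, ∑ k, φ a d * u a * u c * (n k * omM k c d)

def ALG_statement : Prop :=
  (∀ (ζ : Fin 4 → ℂ) (f g : Sp), ∑ k, (hat (jz ζ) k : ℂ) * inner ℂ f (pau k g) =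
    (∑ a, ‖ζ a‖ ^ 2 : ℝ) * inner ℂ f g - inner ℂ (symb ζ f) (symb ζ g)) ∧
  (∃ C : ℝ, ∀ (n : Fin 3 → ℝ) (ζ : Fin 4 → ℂ) (f : Sp) (φ : Fin 4 → Fin 4 → ℝ) (B : ℝ), len n = 1 →
    ‖f‖ = 1 → ∑ k, (n k : ℂ) • pau k f = f → (∀ a c, φ a c = - φ c a) → (∀ a c, |φ a c| ≤ B) →
    PosA n φ → -(C * B * ‖symb ζ f‖ * Real.sqrt (∑ a, ‖ζ a‖ ^ 2)) ≤ wdA (jz ζ) φ) ∧
  (∀ (n : Fin 3 → ℝ) (F φ : Fin 4 → Fin 4 → ℝ) (t : ℝ), len n = 1 → (∀ a c, F a c = - F c a) →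
    (∀ a c, φ a c = - φ c a) → (∀ k, hat F k = 2 * t * n k) → PosA n φ →
    (1 / 2) * (∑ k, n k * hat φ k) * wdA F F ≤ 2 * t * wdA F φ)

/-! ## `IL`: integration by parts -/

/-- Stokes for spinors and the integrated Lichnerowicz formula -/
def IL_statement : Prop := ∀ (D : Data) (Q : Quat D),
  ∃ (δ : Fin 4 → R4 → ℝ) (B : Fin 4 → R4 → En), (∀ c, ContDiff ℝ ∞ (δ c)) ∧ (∀ c, Per4 (δ c)) ∧
  (∀ c, ContDiff ℝ ∞ (B c)) ∧ (∀ c, Per4 (B c)) ∧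
  ∀ (A : R4 → R4 →L[ℝ] ℝ) (φ χ : R4 → Sp), ContDiff ℝ ∞ A → QA A → ContDiff ℝ ∞ φ → QS φ →
    ContDiff ℝ ∞ χ → QS χ →
    (∫ x in cube, inner ℂ (φ x) (Q.dirac A χ x) =
      - ∫ x in cube, ∑ c, inner ℂ (cov A φ x (Q.b c x) + (δ c x : ℂ) • φ x) (sig c (χ x))) ∧
    ∫ x in cube, inner ℂ (Q.dirac A φ x) (Q.dirac A χ x) =
      ∫ x in cube, (∑ c, inner ℂ (cov A φ x (Q.b c x)) (cov A χ x (Q.b c x))
        - ∑ k, (Q.Fh A x k : ℂ) * inner ℂ (pau k (φ x)) (χ x)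
        + ∑ c, inner ℂ (B c x (cov A φ x (Q.b c x))) (χ x))

/-! ## `MAX`: the maximum principle -/

def MAX_statement : Prop := ∀ (D : Data) (Q : Quat D) (Z : R4 → En), ContDiff ℝ ∞ Z → Per4 Z →
  ∃ K : ℝ, 0 < K ∧ ∀ (A : R4 → R4 →L[ℝ] ℝ) (ψ : R4 → Sp) (v : Fin 3 → ℝ), SW Q Z A ψ v →
    ∀ x, ‖ψ x‖ ^ 2 ≤ Q.rho v x + K

/-! ## `TRI`: trivialisation of the eigenline, uniformly in the direction -/

def TRI_statement : Prop := ∀ (D : Data) (Q : Quat D) (Z : R4 → En), ContDiff ℝ ∞ Z → Per4 Z →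
  ∃ M : ℝ, ∀ u : Fin 3 → ℝ, len u = 1 → ∃ (fp fm : R4 → Sp) (θ : R4 → R4 →L[ℝ] ℝ),
    ContDiff ℝ ∞ fp ∧ ContDiff ℝ ∞ fm ∧ ContDiff ℝ ∞ θ ∧ Per4 fp ∧ Per4 fm ∧ Per4 θ ∧
    Bd M fp ∧ Bd M fm ∧ Bd M (fderiv ℝ fm) ∧ Bd M θ ∧
    (∀ x, ‖fp x‖ ^ 2 = Q.rho u x) ∧ (∀ x, ‖fm x‖ ^ 2 = Q.rho u x) ∧
    (∀ x, ∑ k, (Q.dv x u k : ℂ) • pau k (fp x) = (Q.rho u x / 2 : ℂ) • fp x) ∧
    (∀ x, ∑ k, (Q.dv x u k : ℂ) • pau k (fm x) = -(Q.rho u x / 2 : ℂ) • fm x) ∧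
    ∀ x, ∑ c, sig c (fderiv ℝ fp x (Q.b c x)) + Z x (fp x) =
      ∑ c, (Complex.I * (θ x (Q.b c x) : ℂ)) • sig c (fp x)

/-- solutions in the trivialisation -/
def SOL_statement : Prop := ∀ (D : Data) (Q : Quat D) (Z : R4 → En), ContDiff ℝ ∞ Z → Per4 Z →
  ∃ M : ℝ, ∀ (A : R4 → R4 →L[ℝ] ℝ) (ψ : R4 → Sp) (r : ℝ) (u : Fin 3 → ℝ), 0 < r → len u = 1 →
    SW Q Z A ψ (fun j => r * u j) → Nonempty (Sol Q M r u)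

/-! ## `BETA`, `TOP`, `EN`: the estimates -/

def BETA_statement : Prop := ∀ (D : Data) (Q : Quat D) (M : ℝ), ∃ C r₀ : ℝ, ∀ (r : ℝ)
  (u : Fin 3 → ℝ) (s : Sol Q M r u), r₀ ≤ r →
  ∫ x in cube, (∑ c, ‖cov s.a s.β x (Q.b c x)‖ ^ 2 + r * ‖s.β x‖ ^ 2) ≤
    C / r * ∫ x in cube, (∑ c, ‖cov s.a s.α x (Q.b c x)‖ ^ 2 + 1)

/-- closed forms -/
def TOP_statement : Prop := ∀ (a : R4 → R4 →L[ℝ] ℝ) (α : R4 → ℂ) (κ : CForm), ContDiff ℝ ∞ a →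
  QA a → ContDiff ℝ ∞ α → QS α →
  ∫ x in cube, w4 (jac a α x) (κ.val x) = 2 * Real.pi * κ.κ (e 2) (e 3) ∧
  ∫ x in cube, w4 (fun p q => dd a x p q) (κ.val x) = 2 * Real.pi * κ.κ (e 2) (e 3) ∧
  ∫ x in cube, w4 (fun p q => dd a x p q) (fun p q => dd a x p q) = 0

def EN_statement : Prop := ∀ (D : Data) (Q : Quat D) (M : ℝ), ∃ C r₀ : ℝ, ∀ (r : ℝ)
  (u : Fin 3 → ℝ) (s : Sol Q M r u), r₀ ≤ r →
  ∫ x in cube, ∑ c, ‖cov s.a s.α x (Q.b c x)‖ ^ 2 ≤ C ∧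
  r * ∫ x in cube, (1 - ‖s.α x‖ ^ 2) ^ 2 ≤ C ∧
  r ^ 2 * ∫ x in cube, ‖s.β x‖ ^ 2 ≤ C ∧
  r * ∫ x in cube, ∑ c, ‖cov s.a s.β x (Q.b c x)‖ ^ 2 ≤ C ∧
  r * ∫ x in cube, |1 - ‖s.α x‖ ^ 2| ≤ C ∧
  ∫ x in cube, ∑ i, ∑ j, dd s.a x (e i) (e j) ^ 2 ≤ C * r

/-- the direction converges -/
def DIR_statement : Prop := ∀ (D : Data), Good D → ∀ (Q : Quat D) (M : ℝ) (r : ℕ → ℝ)
  (u : ℕ → Fin 3 → ℝ) (_ : ∀ n, Sol Q M (r n) (u n)), Tendsto r atTop atTop →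
  Tendsto u atTop (𝓝 (Pi.single 0 1))

/-! ## `FF`: no concentration of `F ∧ F / r` -/

def FF_statement : Prop := ∀ (D : Data) (Q : Quat D) (r : ℕ → ℝ) (a : ℕ → R4 → R4 →L[ℝ] ℝ) (C : ℝ),
  (∀ n, 0 < r n) → Tendsto r atTop atTop → (∀ n, ContDiff ℝ ∞ (a n)) → (∀ n, QA (a n)) →
  (∀ n, ∫ x in cube, ∑ i, ∑ j, dd (a n) x (e i) (e j) ^ 2 ≤ C * r n) →
  (∀ n j, ∫ x in cube, |w4 (fun p q => dd (a n) x p q) (fun p q => (tri D j).val x p q)| ≤ C) →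
  ∀ χ : R4 → ℝ, Continuous χ → Per4 χ →
    Tendsto (fun n => (1 / r n) * ∫ x in cube,
      χ x * w4 (fun p q => dd (a n) x p q) (fun p q => dd (a n) x p q)) atTop (𝓝 0)

/-! ## `POS`: positivity of the limit -/

def POS_statement : Prop := ∀ (D : Data), Good D → ∀ (Q : Quat D) (M : ℝ) (r : ℕ → ℝ)
  (u : ℕ → Fin 3 → ℝ) (s : ∀ n, Sol Q M (r n) (u n)), Tendsto r atTop atTop →
  ∀ φ : R4 → F2, Continuous φ → (∀ k x, φ (tr k x) = φ x) → (∀ x p, φ x p p = 0) →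
    (∀ x p, 0 ≤ φ x p (D.J x p)) → ∀ ε > 0, ∀ᶠ n in atTop,
      -ε ≤ ∫ x in cube, w4 (jac (s n).a (s n).α x) (fun p q => φ x p q)

/-- `ASMS`: everything together -/
def ASMS_statement : Prop := MAX_statement → SOL_statement → EN_statement → POS_statement →
  S2_statement

end Vale.Agent.P247.H647
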