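import Vale.Agent.P247.H647.Pau

/-!
# P247, Stage 2, S2: pointwise estimates for solutions in the trivialisation
-/

open scoped ContDiff Topology
open Set MeasureTheory Filter Metric

noncomputable section

namespace Vale.Agent.P247.H647

open Vale.Agent.P247.H74 Vale.Agent.P247.H574

variable {D : Data} (Q : Quat D)

/-! ## Bounds for the frame -/

lemma Per4.bdd {E : Type*} [NormedAddCommGroup E] {g : R4 → E} (hg : Continuous g)
    (hp : Per4 g) : ∃ B : ℝ, ∀ x, ‖g x‖ ≤ B := by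
  obtain ⟨B, hB⟩ := (isCompact_Icc (a := (0 : R4)) (b := 1)).exists_bound_of_continuousOn
    hg.continuousOn
  refine ⟨B, fun x => ?_⟩
  have h1 := hp (fun i => -⌊x i⌋) x
  rw [← h1]
  refine hB _ ⟨fun i => ?_, fun i => ?_⟩
  · have := Int.floor_le (x i)
    simp only [tr]
    push_cast
    simp only [Pi.zero_apply]
    linarith
  · have := (Int.lt_floor_add_one (x i)).le
    simp only [tr]
    push_cast
    simp only [Pi.one_apply]
    linarith

lemma Quat.T_cont (j k : Fin 3) : Continuous fun x => Q.T x j k := (Q.T_smooth j k).continuous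

lemma Quat.T_continuous : Continuous Q.T :=
  continuous_pi fun j => continuous_pi fun k => Q.T_cont j k

lemma Quat.Ti_cont (j k : Fin 3) : Continuous fun x => (Q.T x)⁻¹ j k := by
  have h : (fun x => (Q.T x)⁻¹ j k) = fun x => ((Q.T x).det)⁻¹ * (Q.T x).adjugate j k := by
    funext x
    rw [Matrix.inv_def, Matrix.smul_apply, Ring.inverse_eq_inv', smul_eq_mul]
  rw [h]
  have h1 : Continuous fun x => (Q.T x).det := Q.T_continuous.matrix_det
  have h2 : Continuous fun x => (Q.T x).adjugate j k :=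
    (Q.T_continuous.matrix_adjugate).matrix_elem j k
  exact (h1.inv₀ Q.T_det).mul h2

lemma Quat.T_per' (n : Fin 4 → ℤ) (x : R4) : Q.T (tr n x) = Q.T x := by
  ext j k; exact Q.T_per j k n x

/-- bounds for the matrix and its inverse -/
lemma Quat.exists_T_bd : ∃ B : ℝ, 1 ≤ B ∧ (∀ x j k, |Q.T x j k| ≤ B) ∧
    ∀ x j k, |(Q.T x)⁻¹ j k| ≤ B := by
  have h1 : ∀ p : Fin 3 × Fin 3, ∃ B : ℝ, ∀ x, ‖Q.T x p.1 p.2‖ ≤ B := fun p =>
    Per4.bdd (Q.T_cont p.1 p.2) (Q.T_per p.1 p.2)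
  have h2 : ∀ p : Fin 3 × Fin 3, ∃ B : ℝ, ∀ x, ‖(Q.T x)⁻¹ p.1 p.2‖ ≤ B := fun p =>
    Per4.bdd (Q.Ti_cont p.1 p.2) (fun n x => by rw [Q.T_per'])
  choose B₁ hB₁ using h1
  choose B₂ hB₂ using h2
  refine ⟨1 + ∑ p, |B₁ p| + ∑ p, |B₂ p|, ?_, fun x j k => ?_, fun x j k => ?_⟩
  · have := Finset.sum_nonneg (s := Finset.univ) (f := fun p => |B₁ p|) fun p _ => abs_nonneg _
    have := Finset.sum_nonneg (s := Finset.univ) (f := fun p => |B₂ p|) fun p _ => abs_nonneg _
    linarith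
  · have h3 := Finset.single_le_sum (f := fun p => |B₁ p|) (fun p _ => abs_nonneg _)
      (Finset.mem_univ (j, k))
    have h4 := Finset.sum_nonneg (s := Finset.univ) (f := fun p => |B₂ p|) fun p _ => abs_nonneg _
    have h5 := hB₁ (j, k) x
    rw [Real.norm_eq_abs] at h5
    have h6 := le_abs_self (B₁ (j, k))
    simp only at h3 h5
    linarith
  · have h3 := Finset.single_le_sum (f := fun p => |B₂ p|) (fun p _ => abs_nonneg _)
      (Finset.mem_univ (j, k))
    have h4 := Finset.sum_nonneg (s := Finset.univ) (f := fun p => |B₁ p|) fun p _ => abs_nonneg _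
    have h5 := hB₂ (j, k) x
    rw [Real.norm_eq_abs] at h5
    have h6 := le_abs_self (B₂ (j, k))
    simp only at h3 h5
    linarith

lemma Quat.T_dv (x : R4) (v : Fin 3 → ℝ) : (Q.T x).mulVec (Q.dv x v) = v := by
  rw [Quat.dv, Matrix.mulVec_mulVec, Matrix.mul_nonsing_inv _ (Ne.isUnit (Q.T_det x)),
    Matrix.one_mulVec]

lemma Quat.T_dv_apply (x : R4) (v : Fin 3 → ℝ) (j : Fin 3) :
    ∑ k, Q.T x j k * Q.dv x v k = v j := by
  have := congrFun (Q.T_dv x v) j
  simpa [Matrix.mulVec, dotProduct] using this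

lemma abs_le_len (v : Fin 3 → ℝ) (k : Fin 3) : |v k| ≤ len v := by
  apply Real.abs_le_sqrt
  exact Finset.single_le_sum (f := fun k => v k ^ 2) (fun _ _ => sq_nonneg _) (Finset.mem_univ k)

lemma len_le_sum (v : Fin 3 → ℝ) : len v ≤ ∑ k, |v k| := by
  rw [len]
  apply Real.sqrt_le_iff.2
  refine ⟨Finset.sum_nonneg fun _ _ => abs_nonneg _, ?_⟩
  rw [Fin.sum_univ_three, Fin.sum_univ_three]
  have h0 := abs_nonneg (v 0)
  have h1 := abs_nonneg (v 1)
  have h2 := abs_nonneg (v 2)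
  have e0 := sq_abs (v 0)
  have e1 := sq_abs (v 1)
  have e2 := sq_abs (v 2)
  nlinarith [mul_nonneg h0 h1, mul_nonneg h0 h2, mul_nonneg h1 h2]

/-- uniform bounds for `ρ` -/
lemma Quat.exists_rho_bd : ∃ B : ℝ, 1 ≤ B ∧ (∀ x j k, |Q.T x j k| ≤ B) ∧
    (∀ x j k, |(Q.T x)⁻¹ j k| ≤ B) ∧
    ∀ u, len u = 1 → ∀ x, 1 / B ≤ Q.rho u x ∧ Q.rho u x ≤ B := by
  obtain ⟨B, hB, h1, h2⟩ := Q.exists_T_bd
  refine ⟨18 * B, by linarith, fun x j k => (h1 x j k).trans (by linarith),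
    fun x j k => (h2 x j k).trans (by linarith), fun u hu x => ⟨?_, ?_⟩⟩
  · have h3 : len u ≤ 9 * B * len (Q.dv x u) := by
      refine (len_le_sum u).trans ?_
      have : ∀ j, |u j| ≤ 3 * B * len (Q.dv x u) := by
        intro j
        rw [← Q.T_dv_apply x u j]
        refine (Finset.abs_sum_le_sum_abs _ _).trans ?_
        calc ∑ k, |Q.T x j k * Q.dv x u k| ≤ ∑ _k : Fin 3, B * len (Q.dv x u) := by
              refine Finset.sum_le_sum fun k _ => ?_
              rw [abs_mul]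
              exact mul_le_mul (h1 x j k) (abs_le_len _ k) (abs_nonneg _) (by linarith)
          _ = 3 * B * len (Q.dv x u) := by simp; ring
      calc ∑ k, |u k| ≤ ∑ _k : Fin 3, 3 * B * len (Q.dv x u) :=
            Finset.sum_le_sum fun k _ => this k
        _ = 9 * B * len (Q.dv x u) := by simp; ring
    rw [hu] at h3
    rw [div_le_iff₀ (by linarith), Quat.rho]
    nlinarith
  · have h3 : len (Q.dv x u) ≤ 9 * B := by
      refine (len_le_sum _).trans ?_
      have : ∀ j, |Q.dv x u j| ≤ 3 * B := by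
        intro j
        have : Q.dv x u j = ∑ k, (Q.T x)⁻¹ j k * u k := by
          simp [Quat.dv, Matrix.mulVec, dotProduct]
        rw [this]
        refine (Finset.abs_sum_le_sum_abs _ _).trans ?_
        calc ∑ k, |(Q.T x)⁻¹ j k * u k| ≤ ∑ _k : Fin 3, B * 1 := by
              refine Finset.sum_le_sum fun k _ => ?_
              rw [abs_mul]
              exact mul_le_mul (h2 x j k) ((abs_le_len _ k).trans hu.le) (abs_nonneg _)
                (by linarith)
          _ = 3 * B := by simp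
      calc ∑ k, |Q.dv x u k| ≤ ∑ _k : Fin 3, 3 * B := Finset.sum_le_sum fun k _ => this k
        _ = 9 * B := by simp; ring
    rw [Quat.rho]
    linarith

/-! ## Eigenspinors -/

lemma pau_eq (k : Fin 3) (f : Sp) : pau k f = P3 (Pi.single k 1) f := by
  rw [P3_apply]
  fin_cases k <;> simp

/-- the spin vector of an eigenspinor -/
lemma inner_eig {v : Fin 3 → ℝ} {f : Sp} {c : ℝ} (hc : c ≠ 0) (h : P3 v f = (c : ℂ) • f)
    (k : Fin 3) : (inner ℂ f (pau k f)).re = v k / c * ‖f‖ ^ 2 := by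
  have h1 := P3_anti (Pi.single k 1) v f
  have h2 : ∑ i, (Pi.single k 1 : Fin 3 → ℝ) i * v i = v k := by simp [Pi.single_apply]
  rw [h2, h, map_smul, ← pau_eq] at h1
  have h3 := congrArg (inner ℂ f) h1
  rw [inner_add_right, inner_smul_right, P3_symm, h, inner_smul_left, inner_smul_right,
    inner_self_eq_norm_sq_to_K] at h3
  have h4 := congrArg Complex.re h3
  simp only [Complex.conj_ofReal, Complex.add_re, Complex.re_ofReal_mul] at h4
  have h5 : ((2 * (v k : ℂ)) * ((‖f‖ : ℝ) : ℂ) ^ 2).re = 2 * v k * ‖f‖ ^ 2 := by norm_cast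
  have h6 : ((2 * (v k : ℂ)) * (RCLike.ofReal ‖f‖ : ℂ) ^ 2).re = 2 * v k * ‖f‖ ^ 2 := h5
  rw [h6] at h4
  field_simp
  linarith

section sol

variable {Q} {M r : ℝ} {u : Fin 3 → ℝ} (s : Sol Q M r u)

include s in
lemma Sol.rho_pos (x : R4) : 0 < Q.rho u x := by
  obtain ⟨B, hB, -, -, h⟩ := Q.exists_rho_bd
  exact lt_of_lt_of_le (by positivity) (h u s.u_unit x).1

include s in
lemma Sol.len_pos (x : R4) : 0 < len (Q.dv x u) := by
  have := s.rho_pos x
  rw [Quat.rho] at this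
  linarith

lemma Sol.fp_P3 (x : R4) : P3 (Q.dv x u) (s.fp x) = ((Q.rho u x / 2 : ℝ) : ℂ) • s.fp x := by
  rw [P3_apply, s.fp_eig]
  push_cast
  rfl

lemma Sol.fm_P3 (x : R4) : P3 (Q.dv x u) (s.fm x) = ((-(Q.rho u x / 2) : ℝ) : ℂ) • s.fm x := by
  rw [P3_apply, s.fm_eig]
  push_cast
  rfl

lemma Sol.fp_spin (x : R4) (k : Fin 3) :
    (inner ℂ (s.fp x) (pau k (s.fp x))).re = 2 * Q.dv x u k := by
  have h := s.rho_pos x
  rw [inner_eig (c := Q.rho u x / 2) (by positivity) (s.fp_P3 x), s.fp_norm]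
  field_simp

lemma Sol.fm_spin (x : R4) (k : Fin 3) :
    (inner ℂ (s.fm x) (pau k (s.fm x))).re = -(2 * Q.dv x u k) := by
  have h := s.rho_pos x
  rw [inner_eig (c := -(Q.rho u x / 2)) (by simp; positivity) (s.fm_P3 x), s.fm_norm]
  field_simp

/-- the mixed spin vector, contracted with `T` -/
def Sol.mx (x : R4) (j : Fin 3) : ℝ := ∑ k, Q.T x j k *
  ((starRingEnd ℂ) (s.α x) * s.β x * inner ℂ (s.fp x) (pau k (s.fm x))).re

lemma Sol.spin (x : R4) (k : Fin 3) :
    (inner ℂ (s.α x • s.fp x + s.β x • s.fm x) (pau k (s.α x • s.fp x + s.β x • s.fm x))).re =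
      (‖s.α x‖ ^ 2 - ‖s.β x‖ ^ 2) * (2 * Q.dv x u k) +
        2 * ((starRingEnd ℂ) (s.α x) * s.β x * inner ℂ (s.fp x) (pau k (s.fm x))).re := by
  have h1 : inner ℂ (s.fm x) (pau k (s.fp x)) =
      (starRingEnd ℂ) (inner ℂ (s.fp x) (pau k (s.fm x))) := by
    rw [inner_conj_symm, pau_eq, P3_symm, ← pau_eq]
  simp only [map_add, map_smul, inner_add_left, inner_add_right, inner_smul_left,
    inner_smul_right, h1]
  have h2 := s.fp_spin x k
  have h3 := s.fm_spin x k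
  have h4 : (inner ℂ (s.fp x) (pau k (s.fp x)) : ℂ).im = 0 := by
    have : (starRingEnd ℂ) (inner ℂ (s.fp x) (pau k (s.fp x))) =
        (inner ℂ (s.fp x) (pau k (s.fp x)) : ℂ) := by
      rw [inner_conj_symm, pau_eq, P3_symm]
    exact Complex.conj_eq_iff_im.1 this
  have h5 : (inner ℂ (s.fm x) (pau k (s.fm x)) : ℂ).im = 0 := by
    have : (starRingEnd ℂ) (inner ℂ (s.fm x) (pau k (s.fm x))) =
        (inner ℂ (s.fm x) (pau k (s.fm x)) : ℂ) := by
      rw [inner_conj_symm, pau_eq, P3_symm]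
    exact Complex.conj_eq_iff_im.1 this
  rw [Complex.sq_norm, Complex.sq_norm, Complex.normSq_apply, Complex.normSq_apply]
  generalize inner ℂ (s.fp x) (pau k (s.fm x)) = c at *
  generalize inner ℂ (s.fp x) (pau k (s.fp x)) = p at *
  generalize inner ℂ (s.fm x) (pau k (s.fm x)) = q at *
  simp only [Complex.add_re, Complex.add_im, Complex.mul_re, Complex.mul_im, Complex.conj_re,
    Complex.conj_im, h4, h5, h2, h3]
  ring

/-- the curvature equation, expanded -/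
lemma Sol.curv' (x : R4) (j : Fin 3) :
    w4 (fun p q => dd s.a x p q) (fun p q => (tri D j).val x p q) =
      r * (u j * (1 - ‖s.α x‖ ^ 2 + ‖s.β x‖ ^ 2) - s.mx x j) + s.κ x j := by
  rw [s.curv]
  simp only [s.spin]
  have h1 := Q.T_dv_apply x u j
  rw [Sol.mx, ← h1]
  rw [Fin.sum_univ_three, Fin.sum_univ_three, Fin.sum_univ_three]
  ring

lemma Sol.mx_le {B : ℝ} (hB : 1 ≤ B) (hT : ∀ x j k, |Q.T x j k| ≤ B)
    (hρ : ∀ u, len u = 1 → ∀ x, 1 / B ≤ Q.rho u x ∧ Q.rho u x ≤ B) (x : R4) (j : Fin 3) :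
    |s.mx x j| ≤ 3 * B ^ 2 * (‖s.α x‖ * ‖s.β x‖) := by
  rw [Sol.mx]
  refine (Finset.abs_sum_le_sum_abs _ _).trans ?_
  have h1 : ∀ k, |Q.T x j k * ((starRingEnd ℂ) (s.α x) * s.β x *
      inner ℂ (s.fp x) (pau k (s.fm x))).re| ≤ B * (‖s.α x‖ * ‖s.β x‖ * B) := by
    intro k
    rw [abs_mul]
    refine mul_le_mul (hT x j k) ?_ (abs_nonneg _) (by linarith)
    refine (Complex.abs_re_le_norm _).trans ?_
    rw [norm_mul, norm_mul, RCLike.norm_conj]
    refine mul_le_mul_of_nonneg_left ?_ (by positivity)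
    refine (norm_inner_le_norm _ _).trans ?_
    have h2 : ‖pau k (s.fm x)‖ = ‖s.fm x‖ := by
      rw [pau_eq, norm_P3]
      have : len (Pi.single k 1) = 1 := by
        rw [len]; simp [Pi.single_apply, ite_pow]
      rw [this, one_mul]
    rw [h2]
    have h3 := s.fp_norm x
    have h4 := s.fm_norm x
    have h5 := (hρ u s.u_unit x).2
    nlinarith [sq_nonneg (‖s.fp x‖ - ‖s.fm x‖)]
  calc _ ≤ ∑ _k : Fin 3, B * (‖s.α x‖ * ‖s.β x‖ * B) := Finset.sum_le_sum fun k _ => h1 k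
    _ = _ := by simp; ring

/-! ## The Jacobian -/

/-- the gradients in the frame -/
def Sol.z (x : R4) : Fin 4 → ℂ := fun c => cov s.a s.α x (Q.b c x)
def Sol.y (x : R4) : Fin 4 → ℂ := fun c => cov s.a s.β x (Q.b c x)

lemma Sol.symb_eq (x : R4) : symb (s.z x) (s.fp x) = -(symb (s.y x) (s.fm x) + s.β x • s.zm x) := by
  have h := s.dirac x
  rw [symb_apply, symb_apply]
  simp only [map_add, map_smul, Finset.sum_add_distrib] at h
  rw [eq_neg_iff_add_eq_zero, ← add_assoc]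
  exact h

lemma Sol.symb_le {B : ℝ} (hB : 1 ≤ B)
    (hρ : ∀ u, len u = 1 → ∀ x, 1 / B ≤ Q.rho u x ∧ Q.rho u x ≤ B) (x : R4) :
    ‖symb (s.z x) (s.fp x)‖ ≤ 4 * B * nz (s.y x) + |M| * ‖s.β x‖ := by
  rw [s.symb_eq, norm_neg]
  refine (norm_add_le _ _).trans (add_le_add ?_ ?_)
  · refine (norm_symb_le _ _).trans ?_
    have h1 : ‖s.fm x‖ ≤ B := by
      have h3 := s.fm_norm x
      have h5 := (hρ u s.u_unit x).2
      nlinarith [norm_nonneg (s.fm x)]
    have h2 := nz_nonneg (s.y x)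
    nlinarith
  · rw [norm_smul, mul_comm]
    exact mul_le_mul_of_nonneg_right (((s.zm_bd x).1).trans (le_abs_self M)) (norm_nonneg _)

end sol

/-- the alternating form `2 Im (conj L ⊗ L)` -/
def imF (L : R4 →L[ℝ] ℂ) : F2 :=
  (2 : ℝ) • ((Complex.reCLM.comp L).smulRight (Complex.imCLM.comp L)
    - (Complex.imCLM.comp L).smulRight (Complex.reCLM.comp L))

lemma imF_apply (L : R4 →L[ℝ] ℂ) (p q : R4) : imF L p q = 2 * ((starRingEnd ℂ) (L p) * L q).im := by
  simp [imF, Complex.mul_im]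
  ring

/-- the covariant derivative as a linear map -/
def covL (a : R4 → R4 →L[ℝ] ℝ) (α : R4 → ℂ) (x : R4) : R4 →L[ℝ] ℂ :=
  fderiv ℝ α x - (a x).smulRight (Complex.I * α x)

lemma covL_apply (a : R4 → R4 →L[ℝ] ℝ) (α : R4 → ℂ) (x p : R4) :
    covL a α x p = nab a α x p := by
  simp [covL, nab]
  ring

lemma cov_eq_nab (a : R4 → R4 →L[ℝ] ℝ) (α : R4 → ℂ) (x p : R4) : cov a α x p = nab a α x p := by
  simp [cov, nab]

lemma jac_eq (a : R4 → R4 →L[ℝ] ℝ) (α : R4 → ℂ) (x p q : R4) :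
    jac a α x p q = (1 - ‖α x‖ ^ 2) * dd a x p q + imF (covL a α x) p q := by
  rw [imF_apply, covL_apply, covL_apply]
  rfl

lemma w4_jac (a : R4 → R4 →L[ℝ] ℝ) (α : R4 → ℂ) (x : R4) (Ψ : R4 → R4 → ℝ) :
    w4 (jac a α x) Ψ = (1 - ‖α x‖ ^ 2) * w4 (fun p q => dd a x p q) Ψ
      + w4 (fun p q => imF (covL a α x) p q) Ψ := by
  simp only [w4, jac_eq]
  ring

section sol2

variable {Q} {M r : ℝ} {u : Fin 3 → ℝ} (s : Sol Q M r u)

lemma Sol.fr_imF (x : R4) : fr (fun a => Q.b a x) (fun p q => imF (covL s.a s.α x) p q) =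
    jz (s.z x) := by
  funext a c
  simp only [fr, imF_apply, covL_apply, jz, Sol.z, cov_eq_nab]

/-- the Jacobian part, wedged with the triple -/
lemma Sol.imF_le (hF : FRM_statement) (hA : ALG_statement) {B : ℝ} (hB : 1 ≤ B)
    (hT : ∀ x j k, |Q.T x j k| ≤ B)
    (hρ : ∀ u, len u = 1 → ∀ x, 1 / B ≤ Q.rho u x ∧ Q.rho u x ≤ B) (x : R4) (j : Fin 3) :
    |w4 (fun p q => imF (covL s.a s.α x) p q) (fun p q => (tri D j).val x p q)
      - 2 / Q.rho u x * nz (s.z x) ^ 2 * u j| ≤ 12 * B ^ 2 * nz (s.z x) *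
        ‖symb (s.z x) (s.fp x)‖ := by
  have h1 := (hF D Q x).2.1 (imF (covL s.a s.α x)) (fun p => by rw [imF_apply]; simp
    [mul_comm, Complex.mul_conj]) j
  rw [h1, s.fr_imF]
  have hρx := s.rho_pos x
  have hfpos : 0 < ‖s.fp x‖ := by
    have := s.fp_norm x
    have h2 : 0 < ‖s.fp x‖ ^ 2 := by rw [this]; exact hρx
    exact lt_of_le_of_ne (norm_nonneg _) fun h => by rw [← h] at h2; simp at h2
  set f : Sp := ((‖s.fp x‖⁻¹ : ℝ) : ℂ) • s.fp x with hf
  set n : Fin 3 → ℝ := (2 / Q.rho u x) • Q.dv x u with hn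
  have hf1 : ‖f‖ = 1 := by
    rw [hf, norm_smul, Complex.norm_real, Real.norm_eq_abs, abs_of_pos (by positivity)]
    field_simp
  have hnf : P3 n f = f := by
    have hρc : ((Q.rho u x : ℝ) : ℂ) ≠ 0 := by exact_mod_cast hρx.ne'
    rw [hn, P3_smul, hf, map_smul, s.fp_P3, smul_smul, smul_smul]
    congr 1
    push_cast
    field_simp
  have h3 := hat_jz hA (s.z x) n f hf1 hnf
  have h4 : ∑ k, Q.T x j k * (nz (s.z x) ^ 2 * n k) = 2 / Q.rho u x * nz (s.z x) ^ 2 * u j := by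
    have := Q.T_dv_apply x u j
    rw [← this, hn]
    simp only [Pi.smul_apply, smul_eq_mul]
    rw [Fin.sum_univ_three, Fin.sum_univ_three]
    ring
  rw [← h4, ← Finset.sum_sub_distrib]
  refine (Finset.abs_sum_le_sum_abs _ _).trans ?_
  have h5 : ‖symb (s.z x) f‖ ≤ B * ‖symb (s.z x) (s.fp x)‖ := by
    rw [hf, map_smul, norm_smul, Complex.norm_real, Real.norm_eq_abs, abs_of_pos (by positivity)]
    refine mul_le_mul_of_nonneg_right ?_ (norm_nonneg _)
    have h6 := s.fp_norm x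
    have h7 := (hρ u s.u_unit x).1
    rw [← h6] at h7
    rw [inv_le_comm₀ hfpos (by linarith)]
    by_contra hlt
    push Not at hlt
    have h8 : ‖s.fp x‖ ^ 2 < (B⁻¹) ^ 2 := by
      exact pow_lt_pow_left₀ hlt (norm_nonneg _) two_ne_zero
    have h9 : (B⁻¹) ^ 2 ≤ 1 / B := by
      rw [one_div, sq]
      have : B⁻¹ ≤ 1 := inv_le_one_of_one_le₀ hB
      have h10 : 0 < B⁻¹ := by positivity
      nlinarith
    linarith
  calc ∑ k, |Q.T x j k * hat (jz (s.z x)) k - Q.T x j k * (nz (s.z x) ^ 2 * n k)|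
      ≤ ∑ _k : Fin 3, B * (4 * nz (s.z x) * (B * ‖symb (s.z x) (s.fp x)‖)) := by
        refine Finset.sum_le_sum fun k _ => ?_
        rw [← mul_sub, abs_mul]
        refine mul_le_mul (hT x j k) ?_ (abs_nonneg _) (by linarith)
        have h11 := abs_le_len (fun k => hat (jz (s.z x)) k - nz (s.z x) ^ 2 * n k) k
        refine h11.trans (h3.trans ?_)
        exact mul_le_mul_of_nonneg_left h5 (by have := nz_nonneg (s.z x); positivity)
    _ = _ := by simp; ring

end sol2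

end Vale.Agent.P247.H647
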