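import Vale.Agent.P247.H647.Arr
import Vale.Agent.P247.H647.Key

/-!
# P247, Stage 2, S2: `ALG_statement`
-/

open scoped ContDiff Topology
open Set MeasureTheory Filter Metric

noncomputable section

namespace Vale.Agent.P247.H647

open Vale.Agent.P247.H74 Vale.Agent.P247.H574

/-! ## The first identity -/

lemma jz_c (ζ : Fin 4 → ℂ) (a c : Fin 4) : ((jz ζ a c : ℝ) : ℂ) =
    -Complex.I * ((starRingEnd ℂ) (ζ a) * ζ c - ζ a * (starRingEnd ℂ) (ζ c)) := by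
  apply Complex.ext <;> simp [jz] <;> ring

lemma symb_fin (ζ : Fin 4 → ℂ) (f : Sp) (i : Fin 2) : symb ζ f i =
    ![ζ 0 * f 0 + Complex.I * ζ 1 * f 1 + ζ 2 * f 1 + Complex.I * ζ 3 * f 0,
      ζ 0 * f 1 + Complex.I * ζ 1 * f 0 - ζ 2 * f 0 - Complex.I * ζ 3 * f 1] i := by
  rw [symb_apply, Fin.sum_univ_four]
  simp only [PiLp.add_apply, PiLp.smul_apply, smul_eq_mul, sig_fin]
  fin_cases i <;> simp <;> ring

lemma hat_jz_c (ζ : Fin 4 → ℂ) (k : Fin 3) : ((hat (jz ζ) k : ℝ) : ℂ) =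
    ![-Complex.I * ((starRingEnd ℂ) (ζ 0) * ζ 1 - ζ 0 * (starRingEnd ℂ) (ζ 1)) +
      -Complex.I * ((starRingEnd ℂ) (ζ 2) * ζ 3 - ζ 2 * (starRingEnd ℂ) (ζ 3)),
      -Complex.I * ((starRingEnd ℂ) (ζ 0) * ζ 2 - ζ 0 * (starRingEnd ℂ) (ζ 2)) +
      -Complex.I * ((starRingEnd ℂ) (ζ 3) * ζ 1 - ζ 3 * (starRingEnd ℂ) (ζ 1)),
      -Complex.I * ((starRingEnd ℂ) (ζ 0) * ζ 3 - ζ 0 * (starRingEnd ℂ) (ζ 3)) +
      -Complex.I * ((starRingEnd ℂ) (ζ 1) * ζ 2 - ζ 1 * (starRingEnd ℂ) (ζ 2))] k := by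
  fin_cases k <;> simp [hat, jz_c]

lemma norm_sq_c (z : ℂ) : ((‖z‖ ^ 2 : ℝ) : ℂ) = z * (starRingEnd ℂ) z := by
  rw [Complex.mul_conj, Complex.normSq_eq_norm_sq]

lemma alg1 (ζ : Fin 4 → ℂ) (f g : Sp) : ∑ k, (hat (jz ζ) k : ℂ) * inner ℂ f (pau k g) =
    (∑ a, ‖ζ a‖ ^ 2 : ℝ) * inner ℂ f g - inner ℂ (symb ζ f) (symb ζ g) := by
  rw [Fin.sum_univ_three, Fin.sum_univ_four, hat_jz_c, hat_jz_c, hat_jz_c]
  push_cast
  simp only [← Complex.ofReal_pow, norm_sq_c]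
  simp only [inner_sp, symb_fin, pau0_apply, pau1_apply, pau2_apply]
  simp only [Matrix.cons_val_zero, Matrix.cons_val_one, Matrix.cons_val, map_add, map_sub,
    map_mul, Complex.conj_I]
  ring_nf
  simp only [Complex.I_sq]
  ring

/-! ## The third inequality -/

lemma alg3_id (t n0 n1 n2 a b c p01 p02 p03 p12 p13 p23 : ℝ) (N : ℝ)
    (hN : N = n0 ^ 2 + n1 ^ 2 + n2 ^ 2) :
    (1 / 2 : ℝ) * ∑ i : Fin 4, qf ![n0, n1, n2]
      ![![0, p01, p02, p03], ![-p01, 0, p12, p13], ![-p02, -p12, 0, p23], ![-p03, -p13, -p23, 0]]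
      (fun k => (if k = i then 2 * t * N else 0) - ∑ l,
        ![![0, t * n0 + a, t * n1 + b, t * n2 + c],
          ![-(t * n0 + a), 0, t * n2 - c, -(t * n1 - b)],
          ![-(t * n1 + b), -(t * n2 - c), 0, t * n0 - a],
          ![-(t * n2 + c), t * n1 - b, -(t * n0 - a), 0]] k l * omn ![n0, n1, n2] i l) =
    N * ((t ^ 2 * N + a ^ 2 + b ^ 2 + c ^ 2) *
      (n0 * (p01 + p23) + n1 * (p02 - p13) + n2 * (p03 + p12)) +
      2 * t * N * (-(a * (p01 - p23)) - b * (p02 + p13) - c * (p03 - p12))) := by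
  subst hN
  simp only [qf_eq, omn_eq, Fin.sum_univ_four]
  simp
  ring

lemma vec3 (n : Fin 3 → ℝ) : ![n 0, n 1, n 2] = n := by
  funext k; fin_cases k <;> rfl

lemma anti_eq {φ : Fin 4 → Fin 4 → ℝ} (h : ∀ a c, φ a c = - φ c a) :
    ![![0, φ 0 1, φ 0 2, φ 0 3], ![-φ 0 1, 0, φ 1 2, φ 1 3], ![-φ 0 2, -φ 1 2, 0, φ 2 3],
      ![-φ 0 3, -φ 1 3, -φ 2 3, 0]] = φ := by
  have h0 : ∀ a, φ a a = 0 := fun a => by have := h a a; linarith
  funext a c
  fin_cases a <;> fin_cases c <;> simp [h0] <;> linarith [h 1 0, h 2 0, h 3 0, h 2 1, h 3 1, h 3 2]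

lemma alg3 (n : Fin 3 → ℝ) (F φ : Fin 4 → Fin 4 → ℝ) (t : ℝ) (hn : len n = 1)
    (hF : ∀ a c, F a c = - F c a) (hφ : ∀ a c, φ a c = - φ c a) (hh : ∀ k, hat F k = 2 * t * n k)
    (hp : PosA n φ) : (1 / 2) * (∑ k, n k * hat φ k) * wdA F F ≤ 2 * t * wdA F φ := by
  have h0 := hh 0
  have h1 := hh 1
  have h2 := hh 2
  simp only [hat, Matrix.cons_val_zero, Matrix.cons_val_one, Matrix.cons_val] at h0 h1 h2
  have hN : (1 : ℝ) = n 0 ^ 2 + n 1 ^ 2 + n 2 ^ 2 := by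
    have := len_sq n
    rw [hn, Fin.sum_univ_three] at this
    linarith
  obtain ⟨a, ha⟩ : ∃ a, F 0 1 = t * n 0 + a := ⟨F 0 1 - t * n 0, by ring⟩
  obtain ⟨b, hb⟩ : ∃ b, F 0 2 = t * n 1 + b := ⟨F 0 2 - t * n 1, by ring⟩
  obtain ⟨c, hc⟩ : ∃ c, F 0 3 = t * n 2 + c := ⟨F 0 3 - t * n 2, by ring⟩
  have ha' : F 2 3 = t * n 0 - a := by linarith
  have hb' : F 1 3 = -(t * n 1 - b) := by linarith [hF 1 3]
  have hc' : F 1 2 = t * n 2 - c := by linarith
  have h3 := alg3_id t (n 0) (n 1) (n 2) a b c (φ 0 1) (φ 0 2) (φ 0 3) (φ 1 2) (φ 1 3) (φ 2 3) 1 hN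
  rw [anti_eq hφ, vec3] at h3
  have h4 : 0 ≤ (1 / 2 : ℝ) * ∑ i : Fin 4, qf n φ (fun k => (if k = i then 2 * t * 1 else 0) -
      ∑ l, ![![0, t * n 0 + a, t * n 1 + b, t * n 2 + c],
          ![-(t * n 0 + a), 0, t * n 2 - c, -(t * n 1 - b)],
          ![-(t * n 1 + b), -(t * n 2 - c), 0, t * n 0 - a],
          ![-(t * n 2 + c), t * n 1 - b, -(t * n 0 - a), 0]] k l * omn n i l) :=
    mul_nonneg (by norm_num) (Finset.sum_nonneg fun i _ => hp _)
  rw [h3] at h4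
  have e1 : ∑ k, n k * hat φ k =
      n 0 * (φ 0 1 + φ 2 3) + n 1 * (φ 0 2 - φ 1 3) + n 2 * (φ 0 3 + φ 1 2) := by
    rw [Fin.sum_univ_three]
    simp only [hat, Matrix.cons_val_zero, Matrix.cons_val_one, Matrix.cons_val]
    rw [hφ 3 1]; ring
  have e2 : wdA F F = 2 * t ^ 2 - 2 * (a ^ 2 + b ^ 2 + c ^ 2) := by
    simp only [wdA, ha, hb, hc, ha', hb', hc']
    linear_combination (-2 * t ^ 2) * hN
  have e3 : wdA F φ = t * (n 0 * (φ 0 1 + φ 2 3) + n 1 * (φ 0 2 - φ 1 3) +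
      n 2 * (φ 0 3 + φ 1 2)) +
      (-(a * (φ 0 1 - φ 2 3)) - b * (φ 0 2 + φ 1 3) - c * (φ 0 3 - φ 1 2)) := by
    simp only [wdA, ha, hb, hc, ha', hb', hc']
    ring
  rw [e1, e2, e3]
  linarith

/-! ## The second inequality -/

/-- the orthogonal spinor -/
def jf (f : Sp) : Sp := WithLp.toLp 2 ![-(starRingEnd ℂ) (f 1), (starRingEnd ℂ) (f 0)]

lemma jf0 (f : Sp) : jf f 0 = -(starRingEnd ℂ) (f 1) := rfl
lemma jf1 (f : Sp) : jf f 1 = (starRingEnd ℂ) (f 0) := rfl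

lemma decomp (ζ : Fin 4 → ℂ) (f : Sp) (a : Fin 4) :
    inner ℂ (sig a (jf f)) (symb ζ (jf f)) + inner ℂ (sig a f) (symb ζ f) =
      2 * ((starRingEnd ℂ) (f 0) * f 0 + (starRingEnd ℂ) (f 1) * f 1) * ζ a := by
  simp only [inner_sp, symb_fin, sig_fin, jf0, jf1]
  fin_cases a <;>
  · simp only [Matrix.cons_val_zero, Matrix.cons_val_one, Matrix.cons_val, map_neg,
      map_mul, Complex.conj_I, Complex.conj_conj, Fin.zero_eta, Fin.mk_one, Fin.reduceFinMk]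
    ring_nf
    try simp only [Complex.I_sq]
    try ring

lemma alg2_id (p q s t x y z w p01 p02 p03 p12 p13 p23 : ℝ) (A B v : Fin 4 → ℝ)
    (hA : A = ![-s * x + t * y + p * z - q * w, q * x + p * y - t * z - s * w,
      p * x - q * y + s * z - t * w, -t * x - s * y - q * z - p * w])
    (hB : B = ![-s * y - t * x + p * w + q * z, q * y - p * x - t * w + s * z,
      p * y + q * x + s * w + t * z, -t * y + s * x - q * w + p * z])
    (hv : v = ![s * z + t * w + p * x + q * y, -q * z + p * w - t * x + s * y,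
      -p * z - q * w + s * x + t * y, t * z - s * w - q * x + p * y]) :
    (p ^ 2 + q ^ 2 + s ^ 2 + t ^ 2) * wdA (fun a c => 2 * (A a / 2 * (B c / 2) -
      B a / 2 * (A c / 2)))
      ![![0, p01, p02, p03], ![-p01, 0, p12, p13], ![-p02, -p12, 0, p23], ![-p03, -p13, -p23, 0]] =
    1 / 2 * qf ![2 * (p * s + q * t), 2 * (p * t - q * s), p ^ 2 + q ^ 2 - s ^ 2 - t ^ 2]
      ![![0, p01, p02, p03], ![-p01, 0, p12, p13], ![-p02, -p12, 0, p23], ![-p03, -p13, -p23, 0]]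
      v := by
  subst hA hB hv
  simp only [qf_eq, omn_eq, Fin.sum_univ_four, wdA]
  simp
  ring

/-- the part of `ζ` seen by the orthogonal spinor -/
def zp (f η : Sp) (a : Fin 4) : ℂ := 1 / 2 * inner ℂ (sig a (jf f)) η

/-- its array is positive -/
lemma zp_pos {n : Fin 3 → ℝ} {f η : Sp} {φ : Fin 4 → Fin 4 → ℝ} (hf : ‖f‖ = 1)
    (hn : P3 n f = f) (hφ : ∀ a c, φ a c = - φ c a) (hp : PosA n φ) :
    0 ≤ wdA (jz (zp f η)) φ := by
  have hf2 : (f 0).re ^ 2 + (f 0).im ^ 2 + (f 1).re ^ 2 + (f 1).im ^ 2 = 1 := by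
    have := norm_sq_sp f
    rw [hf, Complex.sq_norm, Complex.sq_norm, Complex.normSq_apply, Complex.normSq_apply] at this
    linarith
  have hn' : ![2 * ((f 0).re * (f 1).re + (f 0).im * (f 1).im),
      2 * ((f 0).re * (f 1).im - (f 0).im * (f 1).re),
      (f 0).re ^ 2 + (f 0).im ^ 2 - (f 1).re ^ 2 - (f 1).im ^ 2] = n := by
    have h1 : ∀ k, (inner ℂ f (pau k f)).re = n k := by
      intro k
      have := inner_eig (c := 1) one_ne_zero (by rw [hn]; simp : P3 n f = ((1 : ℝ) : ℂ) • f) k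
      rw [this, hf]; ring
    funext k
    rw [← h1 k, inner_sp]
    fin_cases k
    · simp only [Fin.zero_eta, pau0_apply]
      simp
      ring
    · simp only [Fin.mk_one, pau1_apply]
      simp
      ring
    · simp only [Fin.reduceFinMk, pau2_apply]
      simp
      ring
  have h := alg2_id (f 0).re (f 0).im (f 1).re (f 1).im (η 0).re (η 0).im (η 1).re (η 1).im
    (φ 0 1) (φ 0 2) (φ 0 3) (φ 1 2) (φ 1 3) (φ 2 3) _ _ _ rfl rfl rfl
  rw [anti_eq hφ, hn', hf2, one_mul] at h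
  have h2 : jz (zp f η) = fun a c => 2 * (
      (![-(f 1).re * (η 0).re + (f 1).im * (η 0).im + (f 0).re * (η 1).re - (f 0).im * (η 1).im,
      (f 0).im * (η 0).re + (f 0).re * (η 0).im - (f 1).im * (η 1).re - (f 1).re * (η 1).im,
      (f 0).re * (η 0).re - (f 0).im * (η 0).im + (f 1).re * (η 1).re - (f 1).im * (η 1).im,
      -(f 1).im * (η 0).re - (f 1).re * (η 0).im - (f 0).im * (η 1).re -
        (f 0).re * (η 1).im] a / 2 : ℝ) *
      (![-(f 1).re * (η 0).im - (f 1).im * (η 0).re + (f 0).re * (η 1).im + (f 0).im * (η 1).re,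
      (f 0).im * (η 0).im - (f 0).re * (η 0).re - (f 1).im * (η 1).im + (f 1).re * (η 1).re,
      (f 0).re * (η 0).im + (f 0).im * (η 0).re + (f 1).re * (η 1).im + (f 1).im * (η 1).re,
      -(f 1).im * (η 0).im + (f 1).re * (η 0).re - (f 0).im * (η 1).im +
        (f 0).re * (η 1).re] c / 2) -
      ![-(f 1).re * (η 0).im - (f 1).im * (η 0).re + (f 0).re * (η 1).im + (f 0).im * (η 1).re,
      (f 0).im * (η 0).im - (f 0).re * (η 0).re - (f 1).im * (η 1).im + (f 1).re * (η 1).re,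
      (f 0).re * (η 0).im + (f 0).im * (η 0).re + (f 1).re * (η 1).im + (f 1).im * (η 1).re,
      -(f 1).im * (η 0).im + (f 1).re * (η 0).re - (f 0).im * (η 1).im +
        (f 0).re * (η 1).re] a / 2 *
      (![-(f 1).re * (η 0).re + (f 1).im * (η 0).im + (f 0).re * (η 1).re - (f 0).im * (η 1).im,
      (f 0).im * (η 0).re + (f 0).re * (η 0).im - (f 1).im * (η 1).re - (f 1).re * (η 1).im,
      (f 0).re * (η 0).re - (f 0).im * (η 0).im + (f 1).re * (η 1).re - (f 1).im * (η 1).im,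
      -(f 1).im * (η 0).re - (f 1).re * (η 0).im - (f 0).im * (η 1).re -
        (f 0).re * (η 1).im] c / 2)) := by
    have hre : ∀ a, (zp f η a).re = ![-(f 1).re * (η 0).re + (f 1).im * (η 0).im +
        (f 0).re * (η 1).re - (f 0).im * (η 1).im,
      (f 0).im * (η 0).re + (f 0).re * (η 0).im - (f 1).im * (η 1).re - (f 1).re * (η 1).im,
      (f 0).re * (η 0).re - (f 0).im * (η 0).im + (f 1).re * (η 1).re - (f 1).im * (η 1).im,
      -(f 1).im * (η 0).re - (f 1).re * (η 0).im - (f 0).im * (η 1).re -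
        (f 0).re * (η 1).im] a / 2 := by
      intro a
      simp only [zp, inner_sp, sig_fin, jf0, jf1]
      fin_cases a <;> simp <;> ring
    have him : ∀ a, (zp f η a).im = ![-(f 1).re * (η 0).im - (f 1).im * (η 0).re +
        (f 0).re * (η 1).im + (f 0).im * (η 1).re,
      (f 0).im * (η 0).im - (f 0).re * (η 0).re - (f 1).im * (η 1).im + (f 1).re * (η 1).re,
      (f 0).re * (η 0).im + (f 0).im * (η 0).re + (f 1).re * (η 1).im + (f 1).im * (η 1).re,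
      -(f 1).im * (η 0).im + (f 1).re * (η 0).re - (f 0).im * (η 1).im +
        (f 0).re * (η 1).re] a / 2 := by
      intro a
      simp only [zp, inner_sp, sig_fin, jf0, jf1]
      fin_cases a <;> simp <;> ring
    funext a c
    rw [← hre a, ← hre c, ← him a, ← him c]
    simp only [jz, Complex.mul_im, Complex.conj_re, Complex.conj_im]
    ring
  rw [h2, h]
  exact mul_nonneg (by norm_num) (hp _)

lemma wdA_le {Φ φ : Fin 4 → Fin 4 → ℝ} {A B : ℝ} (hΦ : ∀ a c, |Φ a c| ≤ A)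
    (hφ : ∀ a c, |φ a c| ≤ B) : |wdA Φ φ| ≤ 6 * (A * B) := by
  have h : ∀ a c d i, |Φ a c * φ d i| ≤ A * B := by
    intro a c d i
    rw [abs_mul]
    exact mul_le_mul (hΦ a c) (hφ d i) (abs_nonneg _) ((abs_nonneg _).trans (hΦ a c))
  have h1 := abs_le.1 (h 0 1 2 3)
  have h2 := abs_le.1 (h 0 2 1 3)
  have h3 := abs_le.1 (h 0 3 1 2)
  have h4 := abs_le.1 (h 1 2 0 3)
  have h5 := abs_le.1 (h 1 3 0 2)
  have h6 := abs_le.1 (h 2 3 0 1)
  rw [abs_le, wdA]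
  constructor <;> linarith

lemma alg2 (n : Fin 3 → ℝ) (ζ : Fin 4 → ℂ) (f : Sp) (φ : Fin 4 → Fin 4 → ℝ) (B : ℝ)
    (hf : ‖f‖ = 1) (hn : P3 n f = f) (hφ : ∀ a c, φ a c = - φ c a) (hB : ∀ a c, |φ a c| ≤ B)
    (hp : PosA n φ) : -(24 * B * ‖symb ζ f‖ * nz ζ) ≤ wdA (jz ζ) φ := by
  set η := symb ζ (jf f) with hη
  set S := ‖symb ζ f‖ with hS
  have hS0 : 0 ≤ S := norm_nonneg _
  have hz0 := nz_nonneg ζ
  have hS1 : S ≤ 4 * nz ζ := by
    have := norm_symb_le ζ f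
    rw [hf, mul_one] at this
    exact this
  have hdec : ∀ a, ζ a = zp f η a + 1 / 2 * inner ℂ (sig a f) (symb ζ f) := by
    intro a
    have h := decomp ζ f a
    have h2 : (starRingEnd ℂ) (f 0) * f 0 + (starRingEnd ℂ) (f 1) * f 1 = 1 := by
      rw [← inner_sp, inner_self_eq_norm_sq_to_K, hf]; simp
    rw [h2] at h
    rw [zp, hη]
    linear_combination (-1 / 2 : ℂ) * h
  have h1 : ∀ a, ‖(1 / 2 : ℂ) * inner ℂ (sig a f) (symb ζ f)‖ ≤ S / 2 := by
    intro a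
    rw [norm_mul]
    have := norm_inner_le_norm (𝕜 := ℂ) (sig a f) (symb ζ f)
    rw [norm_sig, hf, one_mul] at this
    norm_num
    linarith
  have h2 : ∀ a, ‖zp f η a‖ ≤ 3 * nz ζ := by
    intro a
    have e1 : zp f η a = ζ a - 1 / 2 * inner ℂ (sig a f) (symb ζ f) := by rw [hdec a]; ring
    rw [e1]
    have := norm_sub_le (ζ a) (1 / 2 * inner ℂ (sig a f) (symb ζ f))
    have := h1 a
    have := norm_le_nz ζ a
    linarith
  have h3 : ∀ a c, |jz ζ a c - jz (zp f η) a c| ≤ 4 * S * nz ζ := by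
    intro a c
    have e1 : jz ζ a c - jz (zp f η) a c =
        2 * ((starRingEnd ℂ) (1 / 2 * inner ℂ (sig a f) (symb ζ f)) * ζ c +
          (starRingEnd ℂ) (zp f η a) * (1 / 2 * inner ℂ (sig c f) (symb ζ f))).im := by
      have e2 : (starRingEnd ℂ) (ζ a) * ζ c - (starRingEnd ℂ) (zp f η a) * zp f η c =
          (starRingEnd ℂ) (1 / 2 * inner ℂ (sig a f) (symb ζ f)) * ζ c +
          (starRingEnd ℂ) (zp f η a) * (1 / 2 * inner ℂ (sig c f) (symb ζ f)) := by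
        have ha := congrArg (starRingEnd ℂ) (hdec a)
        rw [map_add] at ha
        have hc := hdec c
        rw [ha]
        linear_combination ((starRingEnd ℂ) (zp f η a)) * hc
      rw [← e2, Complex.sub_im, jz, jz]
      ring
    rw [e1, abs_mul, abs_two]
    have e3 : ‖(starRingEnd ℂ) (1 / 2 * inner ℂ (sig a f) (symb ζ f)) * ζ c +
        (starRingEnd ℂ) (zp f η a) * (1 / 2 * inner ℂ (sig c f) (symb ζ f))‖ ≤
        S / 2 * nz ζ + 3 * nz ζ * (S / 2) := by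
      refine (norm_add_le _ _).trans (add_le_add ?_ ?_)
      · rw [norm_mul, RCLike.norm_conj]
        exact mul_le_mul (h1 a) (norm_le_nz ζ c) (norm_nonneg _) (by positivity)
      · rw [norm_mul, RCLike.norm_conj]
        exact mul_le_mul (h2 a) (h1 c) (norm_nonneg _) (by positivity)
    have e4 := Complex.abs_im_le_norm ((starRingEnd ℂ) (1 / 2 * inner ℂ (sig a f) (symb ζ f)) *
      ζ c + (starRingEnd ℂ) (zp f η a) * (1 / 2 * inner ℂ (sig c f) (symb ζ f)))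
    linarith
  have h4 := zp_pos (η := η) hf hn hφ hp
  have h5 : wdA (jz ζ) φ = wdA (jz (zp f η)) φ +
      wdA (fun a c => jz ζ a c - jz (zp f η) a c) φ := by
    simp only [wdA]; ring
  have h6 := wdA_le h3 hB
  have h7 := (abs_le.1 h6).1
  rw [h5]
  have h8 : 6 * (4 * S * nz ζ * B) = 24 * B * S * nz ζ := by ring
  linarith

theorem ALG : ALG_statement :=
  ⟨alg1, ⟨24, fun n ζ f φ B _ hf hnf hφ hB hp =>
    alg2 n ζ f φ B hf (by rw [P3_apply]; exact hnf) hφ hB hp⟩, alg3⟩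

end Vale.Agent.P247.H647
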