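import Vale.Agent.P247.H647.Pau

/-!
# P247, Stage 2, S2: arrays and positivity
-/

open scoped ContDiff Topology
open Set MeasureTheory Filter Metric

noncomputable section

namespace Vale.Agent.P247.H647

open Vale.Agent.P247.H74 Vale.Agent.P247.H574

/-- antisymmetric arrays -/
def Anti (φ : Fin 4 → Fin 4 → ℝ) : Prop := ∀ a c, φ a c = - φ c a

/-- the self-dual array of a vector -/
def omn (n : Fin 3 → ℝ) : Fin 4 → Fin 4 → ℝ := fun a c => ∑ k, n k * omM k a c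

lemma omn_eq (n : Fin 3 → ℝ) : omn n =
    ![![0, n 0, n 1, n 2], ![-n 0, 0, n 2, -n 1], ![-n 1, -n 2, 0, n 0], ![-n 2, n 1, -n 0, 0]] := by
  funext a c
  fin_cases a <;> fin_cases c <;> simp [omn, omM, Fin.sum_univ_three]

lemma omn_anti (n : Fin 3 → ℝ) : Anti (omn n) := by
  intro a c
  rw [omn_eq]
  fin_cases a <;> fin_cases c <;> simp

lemma omn_le (n : Fin 3 → ℝ) {d : ℝ} (hd : 0 ≤ d) (h : ∀ k, |n k| ≤ d) (a c : Fin 4) :
    |omn n a c| ≤ d := by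
  rw [omn_eq]
  fin_cases a <;> fin_cases c <;> simp [hd, h]

lemma hat_omn (n : Fin 3 → ℝ) (k : Fin 3) : hat (omn n) k = 2 * n k := by
  rw [omn_eq]
  fin_cases k <;> simp [hat] <;> ring

lemma Anti.diag {φ : Fin 4 → Fin 4 → ℝ} (h : Anti φ) (a : Fin 4) : φ a a = 0 := by
  have := h a a; linarith

lemma Anti.add {φ ψ : Fin 4 → Fin 4 → ℝ} (h : Anti φ) (h' : Anti ψ) : Anti (φ + ψ) := by
  intro a c
  simp only [Pi.add_apply]
  rw [h a c, h' a c]; ring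

lemma Anti.sub {φ ψ : Fin 4 → Fin 4 → ℝ} (h : Anti φ) (h' : Anti ψ) : Anti (φ - ψ) := by
  intro a c
  simp only [Pi.sub_apply]
  rw [h a c, h' a c]; ring

lemma Anti.smul {φ : Fin 4 → Fin 4 → ℝ} (t : ℝ) (h : Anti φ) : Anti (t • φ) := by
  intro a c
  simp only [Pi.smul_apply, smul_eq_mul]
  rw [h a c]; ring

lemma wdA_comm (Φ Ψ : Fin 4 → Fin 4 → ℝ) : wdA Φ Ψ = wdA Ψ Φ := by
  simp only [wdA]; ring

lemma wdA_add (Φ Ψ Ψ' : Fin 4 → Fin 4 → ℝ) : wdA Φ (Ψ + Ψ') = wdA Φ Ψ + wdA Φ Ψ' := by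
  simp only [wdA, Pi.add_apply]; ring

lemma wdA_sub (Φ Ψ Ψ' : Fin 4 → Fin 4 → ℝ) : wdA Φ (Ψ - Ψ') = wdA Φ Ψ - wdA Φ Ψ' := by
  simp only [wdA, Pi.sub_apply]; ring

lemma wdA_smul (t : ℝ) (Φ Ψ : Fin 4 → Fin 4 → ℝ) : wdA Φ (t • Ψ) = t * wdA Φ Ψ := by
  simp only [wdA, Pi.smul_apply, smul_eq_mul]; ring

lemma hat_add (Φ Ψ : Fin 4 → Fin 4 → ℝ) (k : Fin 3) : hat (Φ + Ψ) k = hat Φ k + hat Ψ k := by
  fin_cases k <;> simp [hat] <;> ring

lemma hat_sub (Φ Ψ : Fin 4 → Fin 4 → ℝ) (k : Fin 3) : hat (Φ - Ψ) k = hat Φ k - hat Ψ k := by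
  fin_cases k <;> simp [hat] <;> ring

lemma hat_smul (t : ℝ) (Φ : Fin 4 → Fin 4 → ℝ) (k : Fin 3) : hat (t • Φ) k = t * hat Φ k := by
  fin_cases k <;> simp [hat] <;> ring

lemma wdA_omn {Φ : Fin 4 → Fin 4 → ℝ} (h : Anti Φ) (n : Fin 3 → ℝ) :
    wdA Φ (omn n) = ∑ k, n k * hat Φ k := by
  rw [omn_eq, Fin.sum_univ_three]
  simp [wdA, hat]
  rw [h 3 1]
  ring

lemma hat_le {Φ : Fin 4 → Fin 4 → ℝ} {B : ℝ} (h : ∀ a c, |Φ a c| ≤ B) (k : Fin 3) :
    |hat Φ k| ≤ 2 * B := by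
  fin_cases k
  · have := abs_add_le (Φ 0 1) (Φ 2 3)
    have h1 := h 0 1
    have h2 := h 2 3
    simp [hat]; linarith
  · have := abs_add_le (Φ 0 2) (Φ 3 1)
    have h1 := h 0 2
    have h2 := h 3 1
    simp [hat]; linarith
  · have := abs_add_le (Φ 0 3) (Φ 1 2)
    have h1 := h 0 3
    have h2 := h 1 2
    simp [hat]; linarith

lemma wdA_self_le (Φ : Fin 4 → Fin 4 → ℝ) : |wdA Φ Φ| ≤ ∑ a, ∑ c, Φ a c ^ 2 := by
  simp only [Fin.sum_univ_four, wdA]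
  rw [abs_le]
  constructor <;>
  nlinarith [sq_nonneg (Φ 0 1 + Φ 2 3), sq_nonneg (Φ 0 1 - Φ 2 3), sq_nonneg (Φ 0 2 + Φ 1 3),
    sq_nonneg (Φ 0 2 - Φ 1 3), sq_nonneg (Φ 0 3 + Φ 1 2), sq_nonneg (Φ 0 3 - Φ 1 2),
    sq_nonneg (Φ 1 0), sq_nonneg (Φ 2 0), sq_nonneg (Φ 3 0), sq_nonneg (Φ 2 1), sq_nonneg (Φ 3 1),
    sq_nonneg (Φ 3 2), sq_nonneg (Φ 0 0), sq_nonneg (Φ 1 1), sq_nonneg (Φ 2 2), sq_nonneg (Φ 3 3)]

/-- the quadratic form of `PosA` -/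
def qf (n : Fin 3 → ℝ) (φ : Fin 4 → Fin 4 → ℝ) (u : Fin 4 → ℝ) : ℝ :=
  ∑ a, ∑ c, ∑ d, ∑ k, φ a d * u a * u c * (n k * omM k c d)

lemma qf_eq (n : Fin 3 → ℝ) (φ : Fin 4 → Fin 4 → ℝ) (u : Fin 4 → ℝ) :
    qf n φ u = ∑ a, ∑ c, u a * u c * ∑ d, φ a d * omn n c d := by
  unfold qf omn
  refine Finset.sum_congr rfl fun a _ => Finset.sum_congr rfl fun c _ => ?_
  rw [Finset.mul_sum]
  refine Finset.sum_congr rfl fun d _ => ?_
  rw [Finset.mul_sum, Finset.mul_sum]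
  refine Finset.sum_congr rfl fun k _ => ?_
  ring

lemma qf_omn (n : Fin 3 → ℝ) (u : Fin 4 → ℝ) : qf n (omn n) u = (∑ k, n k ^ 2) * ∑ a, u a ^ 2 := by
  rw [qf_eq, omn_eq]
  simp [Fin.sum_univ_four, Fin.sum_univ_three]
  ring

lemma qf_le (n : Fin 3 → ℝ) (φ : Fin 4 → Fin 4 → ℝ) (u : Fin 4 → ℝ) {B d : ℝ} (hd : 0 ≤ d)
    (hn : ∀ k, |n k| ≤ d) (hφ : ∀ a c, |φ a c| ≤ B) : |qf n φ u| ≤ 16 * B * d * ∑ a, u a ^ 2 := by
  have hB : 0 ≤ B := (abs_nonneg _).trans (hφ 0 0)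
  rw [qf_eq]
  have h1 : ∀ a c, |∑ d, φ a d * omn n c d| ≤ 4 * B * d := by
    intro a c
    refine (Finset.abs_sum_le_sum_abs _ _).trans ?_
    calc ∑ i, |φ a i * omn n c i| ≤ ∑ _i : Fin 4, B * d := by
          refine Finset.sum_le_sum fun i _ => ?_
          rw [abs_mul]
          exact mul_le_mul (hφ a i) (omn_le n hd hn c i) (abs_nonneg _) hB
      _ = _ := by simp; ring
  calc |∑ a, ∑ c, u a * u c * ∑ d, φ a d * omn n c d|
      ≤ ∑ a, ∑ c, |u a| * |u c| * (4 * B * d) := by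
        refine (Finset.abs_sum_le_sum_abs _ _).trans (Finset.sum_le_sum fun a _ => ?_)
        refine (Finset.abs_sum_le_sum_abs _ _).trans (Finset.sum_le_sum fun c _ => ?_)
        rw [abs_mul, abs_mul]
        exact mul_le_mul_of_nonneg_left (h1 a c) (by positivity)
    _ = (∑ a, |u a|) ^ 2 * (4 * B * d) := by
        simp_rw [← Finset.sum_mul, ← Finset.mul_sum]
        rw [← Finset.sum_mul]; ring
    _ ≤ (4 * ∑ a, u a ^ 2) * (4 * B * d) := by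
        refine mul_le_mul_of_nonneg_right ?_ (by positivity)
        have := sq_sum_le_card_mul_sum_sq (s := (Finset.univ : Finset (Fin 4)))
          (f := fun c => |u c|)
        simpa using this
    _ = _ := by ring

lemma PosA_iff (n : Fin 3 → ℝ) (φ : Fin 4 → Fin 4 → ℝ) : PosA n φ ↔ ∀ u, 0 ≤ qf n φ u := Iff.rfl

/-- positivity for a neighbouring direction, after adding a multiple of the self-dual form -/
lemma posA_shift {n n₀ : Fin 3 → ℝ} {φ : Fin 4 → Fin 4 → ℝ} {B d : ℝ} (hd : 0 ≤ d)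
    (hn : ∑ k, n k ^ 2 = 1) (h : ∀ k, |n k - n₀ k| ≤ d) (hφ : ∀ a c, |φ a c| ≤ B)
    (hp : PosA n₀ φ) : PosA n (φ + (16 * B * d) • omn n) := by
  rw [PosA_iff] at hp ⊢
  intro u
  have h1 : qf n (φ + (16 * B * d) • omn n) u = qf n₀ φ u + qf (fun k => n k - n₀ k) φ u +
      16 * B * d * qf n (omn n) u := by
    simp only [qf_eq]
    rw [← Finset.sum_add_distrib, Finset.mul_sum, ← Finset.sum_add_distrib]
    refine Finset.sum_congr rfl fun a _ => ?_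
    rw [← Finset.sum_add_distrib, Finset.mul_sum, ← Finset.sum_add_distrib]
    refine Finset.sum_congr rfl fun c _ => ?_
    have e1 : ∑ d_1, (φ + (16 * B * d) • omn n) a d_1 * omn n c d_1 =
        ∑ d_1, φ a d_1 * omn n c d_1 + (16 * B * d) * ∑ d_1, omn n a d_1 * omn n c d_1 := by
      rw [Finset.mul_sum, ← Finset.sum_add_distrib]
      refine Finset.sum_congr rfl fun i _ => ?_
      simp only [Pi.add_apply, Pi.smul_apply, smul_eq_mul]
      ring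
    have e2 : ∑ d_1, φ a d_1 * omn n c d_1 = ∑ d_1, φ a d_1 * omn n₀ c d_1 +
        ∑ d_1, φ a d_1 * omn (fun k => n k - n₀ k) c d_1 := by
      rw [← Finset.sum_add_distrib]
      refine Finset.sum_congr rfl fun i _ => ?_
      rw [← mul_add]
      congr 1
      simp only [omn]
      rw [← Finset.sum_add_distrib]
      exact Finset.sum_congr rfl fun k _ => by ring
    rw [e1, e2]
    ring
  have h2 := qf_le (fun k => n k - n₀ k) φ u hd h hφ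
  have h3 := hp u
  rw [h1, qf_omn, hn, one_mul]
  have h4 := (abs_le.1 h2).1
  linarith

lemma jz_anti (ζ : Fin 4 → ℂ) : Anti (jz ζ) := by
  intro a c
  simp only [jz, Complex.mul_im, Complex.conj_re, Complex.conj_im]
  ring

lemma jz_le (ζ : Fin 4 → ℂ) (a c : Fin 4) : |jz ζ a c| ≤ 2 * nz ζ ^ 2 := by
  rw [jz, abs_mul, abs_two]
  refine mul_le_mul_of_nonneg_left ?_ (by norm_num)
  refine (Complex.abs_im_le_norm _).trans ?_
  rw [norm_mul, RCLike.norm_conj, sq]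
  exact mul_le_mul (norm_le_nz ζ a) (norm_le_nz ζ c) (norm_nonneg _) (nz_nonneg ζ)

/-- the Jacobian part -/
lemma jac_part (hA : ALG_statement) : ∃ C : ℝ, 0 ≤ C ∧ ∀ (n : Fin 3 → ℝ) (ζ : Fin 4 → ℂ) (f : Sp)
    (φ : Fin 4 → Fin 4 → ℝ) (B δ : ℝ), 0 ≤ δ → len n = 1 → ‖f‖ = 1 → P3 n f = f → Anti φ →
    (∀ a c, |φ a c| ≤ B) → PosA n (φ + δ • omn n) →
    -(C * (B + δ) * (‖symb ζ f‖ * nz ζ)) - 12 * δ * nz ζ ^ 2 ≤ wdA (jz ζ) φ := by
  obtain ⟨C, hC⟩ := hA.2.1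
  refine ⟨|C|, abs_nonneg _, fun n ζ f φ B δ hδ hn hf hnf hφ hB hp => ?_⟩
  have hn1 : ∀ k, |n k| ≤ 1 := by
    intro k
    rw [← hn]
    apply Real.abs_le_sqrt
    exact Finset.single_le_sum (f := fun k => n k ^ 2) (fun _ _ => sq_nonneg _) (Finset.mem_univ k)
  have h1 := hC n ζ f (φ + δ • omn n) (B + δ) hn hf (by rw [← P3_apply]; exact hnf)
    (hφ.add ((omn_anti n).smul δ)) (fun a c => by
      simp only [Pi.add_apply, Pi.smul_apply, smul_eq_mul]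
      refine (abs_add_le _ _).trans (add_le_add (hB a c) ?_)
      rw [abs_mul, abs_of_nonneg hδ]
      have := omn_le n zero_le_one hn1 a c
      nlinarith) hp
  rw [wdA_add, wdA_smul, wdA_omn (jz_anti ζ)] at h1
  have h2 : |∑ k, n k * hat (jz ζ) k| ≤ 12 * nz ζ ^ 2 := by
    refine (Finset.abs_sum_le_sum_abs _ _).trans ?_
    calc ∑ k, |n k * hat (jz ζ) k| ≤ ∑ _k : Fin 3, 1 * (2 * (2 * nz ζ ^ 2)) := by
          refine Finset.sum_le_sum fun k _ => ?_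
          rw [abs_mul]
          exact mul_le_mul (hn1 k) (hat_le (jz_le ζ) k) (abs_nonneg _) zero_le_one
      _ = _ := by simp; ring
  have h3 : δ * ∑ k, n k * hat (jz ζ) k ≤ δ * (12 * nz ζ ^ 2) :=
    mul_le_mul_of_nonneg_left (abs_le.1 h2).2 hδ
  have h4 : Real.sqrt (∑ a, ‖ζ a‖ ^ 2) = nz ζ := rfl
  rw [h4] at h1
  have hB0 : 0 ≤ B := (abs_nonneg _).trans (hB 0 0)
  have h5 : C * (B + δ) * ‖symb ζ f‖ * nz ζ ≤ |C| * (B + δ) * (‖symb ζ f‖ * nz ζ) := by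
    have h6 : 0 ≤ (B + δ) * (‖symb ζ f‖ * nz ζ) := by
      have := nz_nonneg ζ
      positivity
    nlinarith [le_abs_self C]
  linarith

/-- the curvature part -/
lemma curv_part (hA : ALG_statement) {n : Fin 3 → ℝ} {Φ φ : Fin 4 → Fin 4 → ℝ} {B δ r ρ s H : ℝ}
    (hδ : 0 ≤ δ) (hr : 0 < r) (hρ : 0 < ρ) (hn : len n = 1) (hΦ : Anti Φ) (hφ : Anti φ)
    (hB : ∀ a c, |φ a c| ≤ B) (hp : PosA n (φ + δ • omn n))
    (hH : ∀ k, |hat Φ k - 1 / 2 * r * ρ * s * n k| ≤ H) :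
    1 / (r * ρ) * (∑ k, n k * hat φ k + 2 * δ) * wdA Φ Φ -
      ((12 * B + 12 * δ) * (|s| * H) + (9 * B + 3 * δ) / (r * ρ) * H ^ 2 +
        δ * (1 / 2 * r * ρ * s ^ 2)) ≤ s * wdA Φ φ := by
  have hn1 : ∀ k, |n k| ≤ 1 := by
    intro k
    rw [← hn]
    apply Real.abs_le_sqrt
    exact Finset.single_le_sum (f := fun k => n k ^ 2) (fun _ _ => sq_nonneg _) (Finset.mem_univ k)
  have hn2 : ∑ k, n k ^ 2 = 1 := by rw [← len_sq, hn, one_pow]
  have hB0 : 0 ≤ B := (abs_nonneg _).trans (hB 0 0)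
  have hH0 : 0 ≤ H := (abs_nonneg _).trans (hH 0)
  set h : Fin 3 → ℝ := fun k => hat Φ k - 1 / 2 * r * ρ * s * n k with hh
  set R : Fin 4 → Fin 4 → ℝ := (1 / 2 : ℝ) • omn h with hR
  have hhat : ∀ k, hat Φ k = 1 / 2 * r * ρ * s * n k + h k := fun k => by rw [hh]; ring
  have hRan : Anti R := (omn_anti h).smul _
  have h1 := hA.2.2 n (Φ - R) (φ + δ • omn n) (1 / 4 * r * ρ * s) hn (hΦ.sub hRan)
    (hφ.add ((omn_anti n).smul δ)) (fun k => by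
      rw [hat_sub, hR, hat_smul, hat_omn, hhat]; ring) hp
  set S := ∑ k, n k * h k with hS
  set S2 := ∑ k, h k ^ 2 with hS2
  set X := ∑ k, n k * hat φ k + 2 * δ with hX
  set Y := ∑ k, h k * hat φ k with hY
  have e1 : ∑ k, n k * hat (φ + δ • omn n) k = X := by
    simp only [hat_add, hat_smul, hat_omn]
    rw [hX, Fin.sum_univ_three, Fin.sum_univ_three]
    rw [Fin.sum_univ_three] at hn2
    linear_combination 2 * δ * hn2
  have e2 : wdA Φ R = 1 / 2 * (1 / 2 * r * ρ * s * S + S2) := by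
    rw [hR, wdA_smul, wdA_omn hΦ]
    simp only [hhat]
    rw [hS, hS2]
    simp only [Fin.sum_univ_three]
    ring
  have e3 : wdA R R = 1 / 2 * S2 := by
    have : wdA R R = 1 / 2 * wdA R (omn h) := by
      conv_lhs => rw [hR, wdA_smul]
    rw [this, wdA_omn hRan, hS2]
    simp only [hR, hat_smul, hat_omn, Fin.sum_univ_three]
    ring
  have e4 : wdA (Φ - R) (Φ - R) = wdA Φ Φ - 1 / 2 * r * ρ * s * S - 1 / 2 * S2 := by
    have : wdA (Φ - R) (Φ - R) = wdA Φ Φ - 2 * wdA Φ R + wdA R R := by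
      simp only [wdA, Pi.sub_apply]; ring
    rw [this, e2, e3]; ring
  have e5 : wdA (Φ - R) (φ + δ • omn n) = wdA Φ φ - 1 / 2 * Y + δ * (1 / 2 * r * ρ * s) := by
    have a1 : wdA (Φ - R) (φ + δ • omn n) = wdA Φ φ - wdA φ R + δ * wdA (Φ - R) (omn n) := by
      rw [wdA_add, wdA_smul, wdA_comm (Φ - R) φ, wdA_sub, wdA_comm φ Φ]
    have a2 : wdA φ R = 1 / 2 * Y := by rw [hR, wdA_smul, wdA_omn hφ]
    have a3 : wdA (Φ - R) (omn n) = 1 / 2 * r * ρ * s := by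
      rw [wdA_omn (hΦ.sub hRan)]
      simp only [hat_sub, hR, hat_smul, hat_omn, hhat]
      simp only [Fin.sum_univ_three] at hn2 ⊢
      linear_combination (1 / 2 * r * ρ * s) * hn2
    rw [a1, a2, a3]
  rw [e1, e4, e5] at h1
  -- sizes
  have b1 : |S| ≤ 3 * H := by
    refine (Finset.abs_sum_le_sum_abs _ _).trans ?_
    calc ∑ k, |n k * h k| ≤ ∑ _k : Fin 3, 1 * H := by
          refine Finset.sum_le_sum fun k _ => ?_
          rw [abs_mul]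
          exact mul_le_mul (hn1 k) (hH k) (abs_nonneg _) zero_le_one
      _ = _ := by simp
  have b2 : 0 ≤ S2 ∧ S2 ≤ 3 * H ^ 2 := by
    refine ⟨Finset.sum_nonneg fun _ _ => sq_nonneg _, ?_⟩
    calc S2 ≤ ∑ _k : Fin 3, H ^ 2 := Finset.sum_le_sum fun k _ =>
          sq_le_sq' (abs_le.1 (hH k)).1 (abs_le.1 (hH k)).2
      _ = _ := by simp
  have b3 : |X| ≤ 6 * B + 2 * δ := by
    rw [hX]
    refine (abs_add_le _ _).trans (add_le_add ?_ (by rw [abs_of_nonneg (by positivity)]))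
    refine (Finset.abs_sum_le_sum_abs _ _).trans ?_
    calc ∑ k, |n k * hat φ k| ≤ ∑ _k : Fin 3, 1 * (2 * B) := by
          refine Finset.sum_le_sum fun k _ => ?_
          rw [abs_mul]
          exact mul_le_mul (hn1 k) (hat_le hB k) (abs_nonneg _) zero_le_one
      _ = _ := by simp; ring
  have b4 : |Y| ≤ 6 * B * H := by
    refine (Finset.abs_sum_le_sum_abs _ _).trans ?_
    calc ∑ k, |h k * hat φ k| ≤ ∑ _k : Fin 3, H * (2 * B) := by
          refine Finset.sum_le_sum fun k _ => ?_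
          rw [abs_mul]
          exact mul_le_mul (hH k) (hat_le hB k) (abs_nonneg _) hH0
      _ = _ := by simp; ring
  -- divide
  have c1 : 1 / (r * ρ) * X * (wdA Φ Φ - 1 / 2 * r * ρ * s * S - 1 / 2 * S2) ≤
      s * (wdA Φ φ - 1 / 2 * Y + δ * (1 / 2 * r * ρ * s)) := by
    have h2 := mul_le_mul_of_nonneg_left h1 (show (0 : ℝ) ≤ 2 / (r * ρ) by positivity)
    have l1 : 2 / (r * ρ) * (1 / 2 * X * (wdA Φ Φ - 1 / 2 * r * ρ * s * S - 1 / 2 * S2)) =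
        1 / (r * ρ) * X * (wdA Φ Φ - 1 / 2 * r * ρ * s * S - 1 / 2 * S2) := by ring
    have l2 : 2 / (r * ρ) * (2 * (1 / 4 * r * ρ * s) *
        (wdA Φ φ - 1 / 2 * Y + δ * (1 / 2 * r * ρ * s))) =
        s * (wdA Φ φ - 1 / 2 * Y + δ * (1 / 2 * r * ρ * s)) := by
      field_simp
      ring
    rw [l1, l2] at h2
    exact h2
  have c2 : 1 / (r * ρ) * X * (wdA Φ Φ - 1 / 2 * r * ρ * s * S - 1 / 2 * S2) =
      1 / (r * ρ) * X * wdA Φ Φ - 1 / 2 * (s * (X * S)) - 1 / 2 * (1 / (r * ρ)) * (X * S2) := by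
    field_simp
  have c3 : s * (X * S) ≤ |s| * ((6 * B + 2 * δ) * (3 * H)) := by
    refine (le_abs_self _).trans ?_
    rw [abs_mul, abs_mul]
    exact mul_le_mul_of_nonneg_left (mul_le_mul b3 b1 (abs_nonneg _) (by positivity))
      (abs_nonneg _)
  have c4 : 1 / 2 * (1 / (r * ρ)) * (X * S2) ≤
      1 / 2 * (1 / (r * ρ)) * ((6 * B + 2 * δ) * (3 * H ^ 2)) := by
    refine mul_le_mul_of_nonneg_left ?_ (by positivity)
    refine (le_abs_self _).trans ?_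
    rw [abs_mul, abs_of_nonneg b2.1]
    exact mul_le_mul b3 b2.2 b2.1 (by positivity)
  have c5 : s * Y ≥ -(|s| * (6 * B * H)) := by
    have : |s * Y| ≤ |s| * (6 * B * H) := by
      rw [abs_mul]
      exact mul_le_mul_of_nonneg_left b4 (abs_nonneg _)
    exact (abs_le.1 this).1
  have c6 : 1 / 2 * (1 / (r * ρ)) * ((6 * B + 2 * δ) * (3 * H ^ 2)) =
      (9 * B + 3 * δ) / (r * ρ) * H ^ 2 := by field_simp; ring
  rw [c2] at c1
  have c7 : 0 ≤ |s| * H := by positivity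
  have c8 : 0 ≤ δ * (|s| * H) := by positivity
  have c9 : s * (wdA Φ φ - 1 / 2 * Y + δ * (1 / 2 * r * ρ * s)) =
      s * wdA Φ φ - 1 / 2 * (s * Y) + δ * (1 / 2 * r * ρ * s ^ 2) := by ring
  rw [c9] at c1
  have c10 : |s| * ((6 * B + 2 * δ) * (3 * H)) = 18 * B * (|s| * H) + 6 * (δ * (|s| * H)) := by
    ring
  have c11 : |s| * (6 * B * H) = 6 * B * (|s| * H) := by ring
  have c12 : 0 ≤ B * (|s| * H) := by positivity
  rw [c6] at c4
  rw [c10] at c3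
  rw [c11] at c5
  linarith

end Vale.Agent.P247.H647
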