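import Vale.Agent.P247.H647.Key

/-!
# P247, Stage 2, S2: energy estimates
-/

open scoped ContDiff Topology
open Set MeasureTheory Filter Metric

noncomputable section

namespace Vale.Agent.P247.H647

open Vale.Agent.P247.H74 Vale.Agent.P247.H574

/-! ## Integrals over the cube -/

lemma intc {E : Type*} [NormedAddCommGroup E] {f : R4 → E} (hf : Continuous f) :
    IntegrableOn f cube :=
  hf.continuousOn.integrableOn_compact isCompact_Icc

lemma vol_cube : (volume cube).toReal = 1 := by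
  rw [cube, Real.volume_Icc_pi]
  simp

lemma int_const_cube (c : ℝ) : ∫ _x in cube, c = c := by
  rw [setIntegral_const]
  simp [measureReal_def, vol_cube]

lemma int_mono {f g : R4 → ℝ} (hf : Continuous f) (hg : Continuous g) (h : ∀ x, f x ≤ g x) :
    ∫ x in cube, f x ≤ ∫ x in cube, g x :=
  setIntegral_mono (intc hf) (intc hg) h

lemma int_nonneg' {f : R4 → ℝ} (h : ∀ x, 0 ≤ f x) : 0 ≤ ∫ x in cube, f x :=
  integral_nonneg h

/-- Cauchy-Schwarz on the cube -/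
lemma int_sq_le {f : R4 → ℝ} (hf : Continuous f) :
    (∫ x in cube, f x) ^ 2 ≤ ∫ x in cube, f x ^ 2 := by
  set m := ∫ x in cube, f x with hm
  have h1 : 0 ≤ ∫ x in cube, (f x - m) ^ 2 := int_nonneg' fun x => sq_nonneg _
  have h2 : ∫ x in cube, (f x - m) ^ 2 = (∫ x in cube, f x ^ 2) - m ^ 2 := by
    have h3 : ∀ x, (f x - m) ^ 2 = f x ^ 2 - (2 * m) * f x + m ^ 2 := fun x => by ring
    simp_rw [h3]
    rw [integral_add, integral_sub, integral_const_mul, int_const_cube, ← hm]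
    · ring
    · exact intc (by fun_prop)
    · exact intc (by fun_prop)
    · exact intc (by fun_prop)
    · exact intc (by fun_prop)
  linarith

/-! ## Continuity -/

lemma cont_cov {E : Type*} [NormedAddCommGroup E] [NormedSpace ℂ E]
    {a : R4 → R4 →L[ℝ] ℝ} {s : R4 → E} {b : R4 → R4} (ha : ContDiff ℝ ∞ a) (hs : ContDiff ℝ ∞ s)
    (hb : Continuous b) : Continuous fun x => cov a s x (b x) := by
  have h1 : Continuous (fderiv ℝ s) := hs.continuous_fderiv (by simp)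
  have h2 := ha.continuous
  have h3 := hs.continuous
  unfold cov
  have h4 : Continuous fun x => fderiv ℝ s x (b x) := h1.clm_apply hb
  have h5 : Continuous fun x => a x (b x) := h2.clm_apply hb
  have h6 : Continuous fun x => (Complex.I * (a x (b x) : ℂ)) :=
    continuous_const.mul (Complex.continuous_ofReal.comp h5)
  exact h4.sub (h6.smul h3)

lemma cont_w4 {Φ Ψ : R4 → R4 → R4 → ℝ} (h1 : ∀ p q, Continuous fun x => Φ x p q)
    (h2 : ∀ p q, Continuous fun x => Ψ x p q) : Continuous fun x => w4 (Φ x) (Ψ x) := by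
  unfold w4
  exact (((((h1 _ _).mul (h2 _ _)).sub ((h1 _ _).mul (h2 _ _))).add ((h1 _ _).mul (h2 _ _))).add
    ((h1 _ _).mul (h2 _ _)) |>.sub ((h1 _ _).mul (h2 _ _))).add ((h1 _ _).mul (h2 _ _))

lemma cont_dd {a : R4 → R4 →L[ℝ] ℝ} (ha : ContDiff ℝ ∞ a) (p q : R4) :
    Continuous fun x => dd a x p q := by
  have h1 : Continuous (fderiv ℝ a) := ha.continuous_fderiv (by simp)
  simp only [dd, sub_apply, ContinuousLinearMap.flip_apply]
  exact ((h1.clm_apply continuous_const).clm_apply continuous_const).sub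
    ((h1.clm_apply continuous_const).clm_apply continuous_const)

lemma cont_val (κ : CForm) (p q : R4) : Continuous fun x => κ.val x p q := by
  have h1 : Continuous (fderiv ℝ κ.lam) := κ.lam_smooth.continuous_fderiv (by simp)
  unfold CForm.val
  exact (continuous_const.add ((h1.clm_apply continuous_const).clm_apply continuous_const)).sub
    ((h1.clm_apply continuous_const).clm_apply continuous_const)

lemma cont_jac {a : R4 → R4 →L[ℝ] ℝ} {α : R4 → ℂ} (ha : ContDiff ℝ ∞ a) (hα : ContDiff ℝ ∞ α)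
    (p q : R4) : Continuous fun x => jac a α x p q := by
  have h1 := cont_cov ha hα (b := fun _ => p) continuous_const
  have h2 := cont_cov ha hα (b := fun _ => q) continuous_const
  simp only [cov_eq_nab] at h1 h2
  have h3 := cont_dd ha p q
  have h4 := hα.continuous
  unfold jac
  have h5 : Continuous fun x => ((starRingEnd ℂ) (nab a α x p) * nab a α x q).im :=
    Complex.continuous_im.comp ((Complex.continuous_conj.comp h1).mul h2)
  exact ((continuous_const.sub (h4.norm.pow 2)).mul h3).add (continuous_const.mul h5)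

variable {D : Data} {Q : Quat D} {M r : ℝ} {u : Fin 3 → ℝ} (s : Sol Q M r u)

lemma Sol.cont_z : Continuous s.z :=
  continuous_pi fun c => cont_cov s.a_smooth s.α_smooth (Q.b_smooth c).continuous

lemma Sol.cont_y : Continuous s.y :=
  continuous_pi fun c => cont_cov s.a_smooth s.β_smooth (Q.b_smooth c).continuous

lemma cont_nz {f : R4 → Fin 4 → ℂ} (hf : Continuous f) : Continuous fun x => nz (f x) := by
  unfold nz
  refine Real.continuous_sqrt.comp ?_
  exact continuous_finsetSum _ fun a _ => (((continuous_apply a).comp hf).norm.pow 2)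

include s in
lemma Sol.cont_rho : Continuous fun x => Q.rho u x := by
  have : (fun x => Q.rho u x) = fun x => ‖s.fp x‖ ^ 2 := by
    funext x; rw [s.fp_norm]
  rw [this]
  exact s.fp_smooth.continuous.norm.pow 2

lemma Sol.norm_le (hr : 1 ≤ r) (x : R4) : ‖s.α x‖ ≤ 1 + |M| ∧ ‖s.β x‖ ≤ 1 + |M| := by
  have h1 := s.max x
  have h2 : M / r ≤ |M| := by
    rw [div_le_iff₀ (by linarith)]
    nlinarith [le_abs_self M, abs_nonneg M]
  have h3 := abs_nonneg M
  constructor <;> nlinarith [sq_nonneg ‖s.α x‖, sq_nonneg ‖s.β x‖, norm_nonneg (s.α x),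
    norm_nonneg (s.β x)]

/-- the curvature is close to the direction `u` -/
lemma Sol.F_le {B : ℝ} (hB : 1 ≤ B) (hT : ∀ x j k, |Q.T x j k| ≤ B)
    (hρ : ∀ u, len u = 1 → ∀ x, 1 / B ≤ Q.rho u x ∧ Q.rho u x ≤ B) (hr : 1 ≤ r) (x : R4)
    (j : Fin 3) :
    |w4 (fun p q => dd s.a x p q) (fun p q => (tri D j).val x p q)
      - r * (1 - ‖s.α x‖ ^ 2) * u j| ≤ (4 * B ^ 2 * (1 + |M|)) * (r * ‖s.β x‖) + |M| := by
  rw [s.curv']
  have h1 := s.norm_le hr x
  have h2 := s.mx_le hB hT hρ x j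
  have h3 := s.κ_bd x j
  have h4 : |u j| ≤ 1 := (abs_le_len u j).trans s.u_unit.le
  have h5 := norm_nonneg (s.β x)
  have h6 := norm_nonneg (s.α x)
  have e1 : r * (u j * (1 - ‖s.α x‖ ^ 2 + ‖s.β x‖ ^ 2) - s.mx x j) + s.κ x j -
      r * (1 - ‖s.α x‖ ^ 2) * u j = r * (u j * ‖s.β x‖ ^ 2 - s.mx x j) + s.κ x j := by ring
  rw [e1]
  have h7 : |u j * ‖s.β x‖ ^ 2 - s.mx x j| ≤ 4 * B ^ 2 * (1 + |M|) * ‖s.β x‖ := by
    refine (abs_sub _ _).trans ?_
    rw [abs_mul, abs_of_nonneg (sq_nonneg ‖s.β x‖)]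
    have h8 : |u j| * ‖s.β x‖ ^ 2 ≤ B ^ 2 * (1 + |M|) * ‖s.β x‖ := by
      have : ‖s.β x‖ ^ 2 ≤ (1 + |M|) * ‖s.β x‖ := by nlinarith [h1.2]
      have hB2 : 1 ≤ B ^ 2 := one_le_pow₀ hB
      calc |u j| * ‖s.β x‖ ^ 2 ≤ 1 * ((1 + |M|) * ‖s.β x‖) :=
            mul_le_mul h4 this (sq_nonneg _) zero_le_one
        _ ≤ B ^ 2 * ((1 + |M|) * ‖s.β x‖) := by
            refine mul_le_mul_of_nonneg_right hB2 ?_
            have := abs_nonneg M
            positivity
        _ = _ := by ring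
    have h9 : 3 * B ^ 2 * (‖s.α x‖ * ‖s.β x‖) ≤ 3 * B ^ 2 * ((1 + |M|) * ‖s.β x‖) := by
      refine mul_le_mul_of_nonneg_left ?_ (by positivity)
      exact mul_le_mul_of_nonneg_right h1.1 h5
    linarith
  have h10 : |r * (u j * ‖s.β x‖ ^ 2 - s.mx x j)| ≤
      4 * B ^ 2 * (1 + |M|) * (r * ‖s.β x‖) := by
    rw [abs_mul, abs_of_pos (by linarith : (0 : ℝ) < r)]
    calc r * |u j * ‖s.β x‖ ^ 2 - s.mx x j| ≤ r * (4 * B ^ 2 * (1 + |M|) * ‖s.β x‖) :=
          mul_le_mul_of_nonneg_left h7 (by linarith)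
      _ = _ := by ring
  have h11 : s.κ x j ≤ |M| ∧ -|M| ≤ s.κ x j := by
    have := abs_le.1 (h3.trans (le_abs_self M))
    exact ⟨this.2, this.1⟩
  rw [abs_le] at h10 ⊢
  constructor <;> linarith [h11.1, h11.2, h10.1, h10.2]

/-- the energy density selected by the triple -/
def Sol.G (x : R4) : ℝ := 2 / Q.rho u x * nz (s.z x) ^ 2 + r * (1 - ‖s.α x‖ ^ 2) ^ 2

/-- the error -/
def Sol.Er (x : R4) : ℝ := |1 - ‖s.α x‖ ^ 2| * (r * ‖s.β x‖) + |1 - ‖s.α x‖ ^ 2|
  + nz (s.z x) * nz (s.y x) + nz (s.z x) * ‖s.β x‖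

lemma Sol.key (hF : FRM_statement) (hA : ALG_statement) {B : ℝ} (hB : 1 ≤ B)
    (hT : ∀ x j k, |Q.T x j k| ≤ B)
    (hρ : ∀ u, len u = 1 → ∀ x, 1 / B ≤ Q.rho u x ∧ Q.rho u x ≤ B) (hr : 1 ≤ r) (x : R4)
    (j : Fin 3) :
    |w4 (jac s.a s.α x) (fun p q => (tri D j).val x p q) - u j * s.G x| ≤
      48 * B ^ 3 * (1 + |M|) * s.Er x := by
  have h1 := s.imF_le hF hA hB hT hρ x j
  have h2 := s.F_le hB hT hρ hr x j
  have h3 := s.symb_le hB hρ x
  rw [w4_jac]
  set W := w4 (fun p q => dd s.a x p q) (fun p q => (tri D j).val x p q)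
  set J := w4 (fun p q => imF (covL s.a s.α x) p q) (fun p q => (tri D j).val x p q)
  have e1 : (1 - ‖s.α x‖ ^ 2) * W + J - u j * s.G x =
      (1 - ‖s.α x‖ ^ 2) * (W - r * (1 - ‖s.α x‖ ^ 2) * u j) +
        (J - 2 / Q.rho u x * nz (s.z x) ^ 2 * u j) := by
    rw [Sol.G]; ring
  rw [e1]
  refine (abs_add_le _ _).trans ?_
  rw [abs_mul]
  have hz := nz_nonneg (s.z x)
  have hy := nz_nonneg (s.y x)
  have hb := norm_nonneg (s.β x)
  have hm := abs_nonneg M
  have h1a := abs_nonneg (1 - ‖s.α x‖ ^ 2)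
  have hB2 : 1 ≤ B ^ 2 := one_le_pow₀ hB
  have hB3 : B ^ 2 ≤ B ^ 3 := pow_le_pow_right₀ hB (by norm_num)
  have h4 : |1 - ‖s.α x‖ ^ 2| * |W - r * (1 - ‖s.α x‖ ^ 2) * u j| ≤
      48 * B ^ 3 * (1 + |M|) * (|1 - ‖s.α x‖ ^ 2| * (r * ‖s.β x‖) + |1 - ‖s.α x‖ ^ 2|) := by
    refine (mul_le_mul_of_nonneg_left h2 h1a).trans ?_
    have h5 : 4 * B ^ 2 * (1 + |M|) ≤ 48 * B ^ 3 * (1 + |M|) := by
      refine mul_le_mul_of_nonneg_right ?_ (by linarith)
      linarith
    have h6 : |M| ≤ 48 * B ^ 3 * (1 + |M|) := by nlinarith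
    have h7 : 0 ≤ r * ‖s.β x‖ := by positivity
    calc |1 - ‖s.α x‖ ^ 2| * (4 * B ^ 2 * (1 + |M|) * (r * ‖s.β x‖) + |M|)
        ≤ |1 - ‖s.α x‖ ^ 2| * (48 * B ^ 3 * (1 + |M|) * (r * ‖s.β x‖) +
            48 * B ^ 3 * (1 + |M|)) := by
          refine mul_le_mul_of_nonneg_left ?_ h1a
          exact add_le_add (mul_le_mul_of_nonneg_right h5 h7) h6
      _ = _ := by ring
  have h5 : |J - 2 / Q.rho u x * nz (s.z x) ^ 2 * u j| ≤
      48 * B ^ 3 * (1 + |M|) * (nz (s.z x) * nz (s.y x) + nz (s.z x) * ‖s.β x‖) := by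
    refine h1.trans ?_
    refine (mul_le_mul_of_nonneg_left h3 (by positivity)).trans ?_
    have e2 : 12 * B ^ 2 * nz (s.z x) * (4 * B * nz (s.y x) + |M| * ‖s.β x‖) =
        48 * B ^ 3 * (nz (s.z x) * nz (s.y x)) + 12 * B ^ 2 * |M| * (nz (s.z x) * ‖s.β x‖) := by
      ring
    rw [e2]
    have h6 : 48 * B ^ 3 ≤ 48 * B ^ 3 * (1 + |M|) := by
      have : 0 ≤ B ^ 3 := by positivity
      nlinarith
    have h7 : 12 * B ^ 2 * |M| ≤ 48 * B ^ 3 * (1 + |M|) := by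
      have : 0 ≤ B ^ 3 := by positivity
      nlinarith
    have h8 : 0 ≤ nz (s.z x) * nz (s.y x) := by positivity
    have h9 : 0 ≤ nz (s.z x) * ‖s.β x‖ := by positivity
    nlinarith [mul_le_mul_of_nonneg_right h6 h8, mul_le_mul_of_nonneg_right h7 h9]
  rw [Sol.Er]
  have e3 : 48 * B ^ 3 * (1 + |M|) * (|1 - ‖s.α x‖ ^ 2| * (r * ‖s.β x‖) + |1 - ‖s.α x‖ ^ 2|
      + nz (s.z x) * nz (s.y x) + nz (s.z x) * ‖s.β x‖) =
      48 * B ^ 3 * (1 + |M|) * (|1 - ‖s.α x‖ ^ 2| * (r * ‖s.β x‖) + |1 - ‖s.α x‖ ^ 2|) +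
      48 * B ^ 3 * (1 + |M|) * (nz (s.z x) * nz (s.y x) + nz (s.z x) * ‖s.β x‖) := by ring
  rw [e3]
  exact add_le_add h4 h5

end Vale.Agent.P247.H647
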