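import Vale.Agent.P247.H647.En
import Vale.Agent.P247.H103.Asms

/-!
# P247, Stage 2, S2: `EN_statement`
-/

open scoped ContDiff Topology
open Set MeasureTheory Filter Metric

noncomputable section

namespace Vale.Agent.P247.H647

open Vale.Agent.P247.H74 Vale.Agent.P247.H574

variable {D : Data} {Q : Quat D} {M r : ℝ} {u : Fin 3 → ℝ} (s : Sol Q M r u)

/-- the four integrals -/
def Sol.E1 : ℝ := ∫ x in cube, nz (s.z x) ^ 2
def Sol.E2 : ℝ := ∫ x in cube, (1 - ‖s.α x‖ ^ 2) ^ 2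
def Sol.F1 : ℝ := ∫ x in cube, nz (s.y x) ^ 2
def Sol.F2 : ℝ := ∫ x in cube, ‖s.β x‖ ^ 2

lemma Sol.E1_nonneg : 0 ≤ s.E1 := int_nonneg' fun _ => sq_nonneg _
lemma Sol.E2_nonneg : 0 ≤ s.E2 := int_nonneg' fun _ => sq_nonneg _
lemma Sol.F1_nonneg : 0 ≤ s.F1 := int_nonneg' fun _ => sq_nonneg _
lemma Sol.F2_nonneg : 0 ≤ s.F2 := int_nonneg' fun _ => sq_nonneg _

lemma Sol.cnz : Continuous fun x => nz (s.z x) := cont_nz s.cont_z
lemma Sol.cny : Continuous fun x => nz (s.y x) := cont_nz s.cont_y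
lemma Sol.cα : Continuous fun x => ‖s.α x‖ := s.α_smooth.continuous.norm
lemma Sol.cβ : Continuous fun x => ‖s.β x‖ := s.β_smooth.continuous.norm

lemma Sol.cW (j : Fin 3) : Continuous fun x =>
    w4 (fun p q => dd s.a x p q) (fun p q => (tri D j).val x p q) :=
  cont_w4 (fun p q => cont_dd s.a_smooth p q) (fun p q => cont_val _ p q)

lemma Sol.cJ (j : Fin 3) : Continuous fun x =>
    w4 (jac s.a s.α x) (fun p q => (tri D j).val x p q) :=
  cont_w4 (fun p q => cont_jac s.a_smooth s.α_smooth p q) (fun p q => cont_val _ p q)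

lemma Sol.beta' (hB : BETA_statement) : ∃ C r₀ : ℝ, 0 ≤ C ∧ ∀ (r : ℝ)
    (u : Fin 3 → ℝ) (s : Sol Q M r u), r₀ ≤ r → s.F1 + r * s.F2 ≤ C / r * (s.E1 + 1) := by
  obtain ⟨C, r₀, h⟩ := hB D Q M
  refine ⟨|C|, r₀, abs_nonneg _, fun r u s hr => ?_⟩
  have h1 := h r u s hr
  have e1 : ∫ x in cube, (∑ c, ‖cov s.a s.β x (Q.b c x)‖ ^ 2 + r * ‖s.β x‖ ^ 2) =
      s.F1 + r * s.F2 := by
    have : ∀ x, (∑ c, ‖cov s.a s.β x (Q.b c x)‖ ^ 2 + r * ‖s.β x‖ ^ 2) =
        nz (s.y x) ^ 2 + r * ‖s.β x‖ ^ 2 := fun x => by rw [nz_sq]; rfl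
    simp_rw [this]
    have c1 := s.cny
    have c2 := s.cβ
    rw [integral_add (intc (by fun_prop)) (intc (by fun_prop)), integral_const_mul]
    rfl
  have e2 : ∫ x in cube, (∑ c, ‖cov s.a s.α x (Q.b c x)‖ ^ 2 + 1) = s.E1 + 1 := by
    have : ∀ x, (∑ c, ‖cov s.a s.α x (Q.b c x)‖ ^ 2 + 1) = nz (s.z x) ^ 2 + 1 :=
      fun x => by rw [nz_sq]; rfl
    simp_rw [this]
    have c1 := s.cnz
    rw [integral_add (intc (by fun_prop)) (intc (by fun_prop)), int_const_cube]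
    rfl
  rw [e1, e2] at h1
  refine h1.trans ?_
  have := s.E1_nonneg
  refine mul_le_mul_of_nonneg_right ?_ (by linarith)
  exact div_le_div_of_nonneg_right (le_abs_self C) s.r_pos.le

/-- pointwise bound of the error -/
lemma Sol.Er_le {ε : ℝ} (hε : 0 < ε) (hr : 1 ≤ r) (x : R4) :
    s.Er x ≤ 2 * ε * (nz (s.z x) ^ 2 + r * (1 - ‖s.α x‖ ^ 2) ^ 2) +
      1 / (4 * ε) * (nz (s.y x) ^ 2 + 2 * (r * ‖s.β x‖ ^ 2) + 1) := by
  have hz := nz_nonneg (s.z x)
  have hy := nz_nonneg (s.y x)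
  have hb := norm_nonneg (s.β x)
  have hp : ∀ a b : ℝ, a * b ≤ ε * a ^ 2 + 1 / (4 * ε) * b ^ 2 := by
    intro a b
    have h1 : 0 ≤ (2 * ε * a - b) ^ 2 / (4 * ε) := by positivity
    have h2 : (2 * ε * a - b) ^ 2 / (4 * ε) = ε * a ^ 2 - a * b + 1 / (4 * ε) * b ^ 2 := by
      field_simp
      ring
    linarith
  have h1 := hp (nz (s.z x)) (nz (s.y x))
  have h2 := hp (nz (s.z x)) ‖s.β x‖
  have hr0 : 0 < r := by linarith
  have h3 : |1 - ‖s.α x‖ ^ 2| * (r * ‖s.β x‖) ≤ ε * (r * (1 - ‖s.α x‖ ^ 2) ^ 2) +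
      1 / (4 * ε) * (r * ‖s.β x‖ ^ 2) := by
    have := hp |1 - ‖s.α x‖ ^ 2| ‖s.β x‖
    rw [sq_abs] at this
    have h4 := mul_le_mul_of_nonneg_left this hr0.le
    calc _ = r * (|1 - ‖s.α x‖ ^ 2| * ‖s.β x‖) := by ring
      _ ≤ _ := h4
      _ = _ := by ring
  have h4 : |1 - ‖s.α x‖ ^ 2| ≤ ε * (r * (1 - ‖s.α x‖ ^ 2) ^ 2) + 1 / (4 * ε) := by
    have := hp |1 - ‖s.α x‖ ^ 2| 1
    rw [sq_abs, mul_one] at this
    have h5 : ε * (1 - ‖s.α x‖ ^ 2) ^ 2 ≤ ε * (r * (1 - ‖s.α x‖ ^ 2) ^ 2) := by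
      refine mul_le_mul_of_nonneg_left ?_ hε.le
      nlinarith [sq_nonneg (1 - ‖s.α x‖ ^ 2)]
    linarith
  have h5 : 1 / (4 * ε) * ‖s.β x‖ ^ 2 ≤ 1 / (4 * ε) * (r * ‖s.β x‖ ^ 2) := by
    refine mul_le_mul_of_nonneg_left ?_ (by positivity)
    nlinarith [sq_nonneg ‖s.β x‖]
  rw [Sol.Er]
  linarith

lemma Sol.Er_cont : Continuous s.Er := by
  unfold Sol.Er
  have h1 := s.cnz
  have h2 := s.cny
  have h3 := s.cα
  have h4 := s.cβ
  fun_prop

lemma Sol.G_cont : Continuous s.G := by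
  unfold Sol.G
  have h1 := s.cnz
  have h3 := s.cα
  have h5 := s.cont_rho
  have h6 : ∀ x, Q.rho u x ≠ 0 := fun x => (s.rho_pos x).ne'
  exact ((continuous_const.div h5 h6).mul (h1.pow 2)).add
    (continuous_const.mul ((continuous_const.sub (h3.pow 2)).pow 2))

lemma Sol.int_Er_le {ε : ℝ} (hε : 0 < ε) (hr : 1 ≤ r) :
    ∫ x in cube, s.Er x ≤ 2 * ε * (s.E1 + r * s.E2) + 1 / (4 * ε) * (s.F1 + 2 * (r * s.F2) + 1) := by
  have h1 := s.cnz
  have h2 := s.cny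
  have h3 := s.cα
  have h4 := s.cβ
  refine (int_mono s.Er_cont ?_ (s.Er_le hε hr)).trans (le_of_eq ?_)
  · fun_prop
  · rw [integral_add (intc (by fun_prop)) (intc (by fun_prop)), integral_const_mul,
      integral_const_mul, integral_add (intc (by fun_prop)) (intc (by fun_prop)),
      integral_add (intc (by fun_prop)) (intc (by fun_prop)),
      integral_add (intc (by fun_prop)) (intc (by fun_prop)), integral_const_mul,
      integral_const_mul, integral_const_mul, int_const_cube]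
    rfl

/-- the topological constants -/
def topc (D : Data) (j : Fin 3) : ℝ := 2 * Real.pi * (tri D j).κ (e 2) (e 3)

lemma Sol.int_J (hT : TOP_statement) (j : Fin 3) :
    ∫ x in cube, w4 (jac s.a s.α x) (fun p q => (tri D j).val x p q) = topc D j :=
  (hT s.a s.α (tri D j) s.a_smooth s.a_quasi s.α_smooth s.α_quasi).1

lemma Sol.int_W (hT : TOP_statement) (j : Fin 3) :
    ∫ x in cube, w4 (fun p q => dd s.a x p q) (fun p q => (tri D j).val x p q) = topc D j :=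
  (hT s.a s.α (tri D j) s.a_smooth s.a_quasi s.α_smooth s.α_quasi).2.1

include s in
lemma Sol.u_le (j : Fin 3) : |u j| ≤ 1 := (abs_le_len u j).trans s.u_unit.le

include s in
lemma Sol.u_sq : ∑ j, u j ^ 2 = 1 := by
  rw [← len_sq, s.u_unit, one_pow]

include s in
lemma Sol.sum_top_le : ∑ j, u j * topc D j ≤ ∑ j, |topc D j| := by
  refine Finset.sum_le_sum fun j _ => (le_abs_self _).trans ?_
  rw [abs_mul]
  have := s.u_le j
  nlinarith [abs_nonneg (topc D j)]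

/-- the first energy inequality -/
lemma Sol.G_le (hT : TOP_statement) (hF : FRM_statement) (hA : ALG_statement) {B : ℝ}
    (hB : 1 ≤ B) (hTb : ∀ x j k, |Q.T x j k| ≤ B)
    (hρ : ∀ u, len u = 1 → ∀ x, 1 / B ≤ Q.rho u x ∧ Q.rho u x ≤ B) (hr : 1 ≤ r) :
    ∫ x in cube, s.G x ≤ ∑ j, |topc D j| +
      3 * (48 * B ^ 3 * (1 + |M|)) * ∫ x in cube, s.Er x := by
  set c := 48 * B ^ 3 * (1 + |M|) with hc
  have hc0 : 0 ≤ c := by have := abs_nonneg M; positivity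
  have h1 : ∀ x, s.G x ≤ ∑ j, u j * w4 (jac s.a s.α x) (fun p q => (tri D j).val x p q) +
      3 * c * s.Er x := by
    intro x
    have hEr : 0 ≤ s.Er x := by
      have hz := nz_nonneg (s.z x)
      have hy := nz_nonneg (s.y x)
      have hr0 : 0 < r := by linarith
      rw [Sol.Er]; positivity
    have h2 : ∀ j, u j ^ 2 * s.G x - c * s.Er x ≤
        u j * w4 (jac s.a s.α x) (fun p q => (tri D j).val x p q) := by
      intro j
      have h3 := s.key hF hA hB hTb hρ hr x j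
      rw [← hc] at h3
      have h4 := s.u_le j
      set W := w4 (jac s.a s.α x) (fun p q => (tri D j).val x p q)
      have h5 : |u j * (W - u j * s.G x)| ≤ c * s.Er x := by
        rw [abs_mul]
        calc |u j| * |W - u j * s.G x| ≤ 1 * (c * s.Er x) :=
              mul_le_mul h4 h3 (abs_nonneg _) zero_le_one
          _ = _ := one_mul _
      have h6 := (abs_le.1 h5).1
      nlinarith
    have h3 := Finset.sum_le_sum fun j (_ : j ∈ Finset.univ) => h2 j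
    rw [Finset.sum_sub_distrib, ← Finset.sum_mul, s.u_sq] at h3
    simp only [Finset.sum_const, Finset.card_univ, Fintype.card_fin, nsmul_eq_mul] at h3
    push_cast at h3
    linarith
  have hcont : Continuous fun x => ∑ j, u j * w4 (jac s.a s.α x)
      (fun p q => (tri D j).val x p q) :=
    continuous_finsetSum _ fun j _ => continuous_const.mul (s.cJ j)
  have cE := s.Er_cont
  have cE' : Continuous fun x => 3 * c * s.Er x := by fun_prop
  have h2 := int_mono (g := fun x => ∑ j, u j * w4 (jac s.a s.α x)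
    (fun p q => (tri D j).val x p q) + 3 * c * s.Er x) s.G_cont (hcont.add cE') h1
  have cJ : ∀ j, Continuous fun x => u j * w4 (jac s.a s.α x)
      (fun p q => (tri D j).val x p q) := fun j => continuous_const.mul (s.cJ j)
  rw [integral_add (intc hcont) (intc cE'), integral_const_mul,
    integral_finsetSum _ (fun j _ => (intc (cJ j)))] at h2
  simp_rw [integral_const_mul, s.int_J hT] at h2
  have h3 := s.sum_top_le
  linarith

lemma Sol.le_G {B : ℝ}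
    (hρ : ∀ u, len u = 1 → ∀ x, 1 / B ≤ Q.rho u x ∧ Q.rho u x ≤ B) :
    2 / B * s.E1 + r * s.E2 ≤ ∫ x in cube, s.G x := by
  have h1 : ∀ x, 2 / B * nz (s.z x) ^ 2 + r * (1 - ‖s.α x‖ ^ 2) ^ 2 ≤ s.G x := by
    intro x
    rw [Sol.G]
    have h2 := (hρ u s.u_unit x).2
    have h3 := s.rho_pos x
    have h4 : 2 / B ≤ 2 / Q.rho u x := div_le_div_of_nonneg_left (by norm_num) h3 h2
    have := mul_le_mul_of_nonneg_right h4 (sq_nonneg (nz (s.z x)))
    linarith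
  have c1 := s.cnz
  have c2 := s.cα
  have h2 := int_mono (f := fun x => 2 / B * nz (s.z x) ^ 2 + r * (1 - ‖s.α x‖ ^ 2) ^ 2)
    (by fun_prop) s.G_cont h1
  rw [integral_add (intc (by fun_prop)) (intc (by fun_prop)), integral_const_mul,
    integral_const_mul] at h2
  exact h2

/-- the arithmetic of the energy bound -/
lemma energy_arith {B c Cb K E1 E2 F1 F2 r I : ℝ} (hB : 1 ≤ B) (hc : 1 ≤ c) (hCb : 0 ≤ Cb)
    (hr : 1 ≤ r) (hE1 : 0 ≤ E1) (hE2 : 0 ≤ E2) (hF1 : 0 ≤ F1)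
    (hr4 : 4 * B * Cb * (9 * c ^ 2 * B) ≤ r)
    (h12 : 2 / B * E1 + r * E2 ≤ K + 3 * c * I)
    (h3 : I ≤ 2 * (1 / (12 * c * B)) * (E1 + r * E2) +
      1 / (4 * (1 / (12 * c * B))) * (F1 + 2 * (r * F2) + 1))
    (h4 : F1 + r * F2 ≤ Cb / r * (E1 + 1)) :
    E1 ≤ B * (K + 9 * c ^ 2 * B * (2 * Cb + 1)) ∧
      r * E2 ≤ 2 * (K + 9 * c ^ 2 * B * (2 * Cb + 1)) := by
  have hr0 : 0 < r := by linarith
  have hB0 : 0 < B := by linarith
  have hc0 : 0 < c := by linarith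
  set c9 := 9 * c ^ 2 * B with hc9
  have hc90 : 0 ≤ c9 := by positivity
  have h5 : 3 * c * I ≤ 1 / (2 * B) * (E1 + r * E2) + c9 * (F1 + 2 * (r * F2) + 1) := by
    refine (mul_le_mul_of_nonneg_left h3 (by positivity)).trans (le_of_eq ?_)
    rw [hc9]
    field_simp
    ring
  have h6 : F1 + 2 * (r * F2) + 1 ≤ 2 * (Cb / r * (E1 + 1)) + 1 := by linarith
  have h8 : c9 * (2 * (Cb / r)) ≤ 1 / (2 * B) := by
    rw [show c9 * (2 * (Cb / r)) = (2 * c9 * Cb) / r by ring, div_le_div_iff₀ hr0 (by positivity)]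
    nlinarith
  have h9 : c9 * (2 * (Cb / r)) ≤ c9 * (2 * Cb) := by
    refine mul_le_mul_of_nonneg_left ?_ hc90
    have : Cb / r ≤ Cb := div_le_self hCb hr
    linarith
  have h7 : c9 * (F1 + 2 * (r * F2) + 1) ≤ 1 / (2 * B) * E1 + c9 * (2 * Cb + 1) := by
    calc _ ≤ c9 * (2 * (Cb / r * (E1 + 1)) + 1) := mul_le_mul_of_nonneg_left h6 hc90
      _ = c9 * (2 * (Cb / r)) * E1 + c9 * (2 * (Cb / r)) + c9 := by ring
      _ ≤ 1 / (2 * B) * E1 + c9 * (2 * Cb) + c9 := by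
        have := mul_le_mul_of_nonneg_right h8 hE1
        linarith
      _ = _ := by ring
  have h10 : 1 / B * E1 + (1 - 1 / (2 * B)) * (r * E2) ≤ K + c9 * (2 * Cb + 1) := by
    have e1 : 2 / B * E1 = 1 / B * E1 + 1 / (2 * B) * E1 + 1 / (2 * B) * E1 := by
      field_simp; ring
    linarith
  have h11 : 1 / 2 ≤ 1 - 1 / (2 * B) := by
    have : 1 / (2 * B) ≤ 1 / 2 := by
      rw [div_le_div_iff₀ (by positivity) (by norm_num)]; linarith
    linarith
  have h13 : 0 ≤ r * E2 := by positivity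
  have h14 : 0 ≤ 1 / B * E1 := by positivity
  have h15 : 1 / 2 * (r * E2) ≤ (1 - 1 / (2 * B)) * (r * E2) :=
    mul_le_mul_of_nonneg_right h11 h13
  refine ⟨?_, by linarith⟩
  have h16 : 1 / B * E1 ≤ K + c9 * (2 * Cb + 1) := by linarith
  calc E1 = B * (1 / B * E1) := by field_simp
    _ ≤ _ := mul_le_mul_of_nonneg_left h16 hB0.le

/-- the energy bound -/
lemma Sol_energy (Q : Quat D) (M : ℝ) (hBe : BETA_statement) (hT : TOP_statement)
    (hF : FRM_statement) (hA : ALG_statement) : ∃ C r₀ : ℝ, 1 ≤ C ∧ 1 ≤ r₀ ∧ ∀ (r : ℝ)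
    (u : Fin 3 → ℝ) (s : Sol Q M r u), r₀ ≤ r → s.E1 ≤ C ∧ r * s.E2 ≤ C ∧ r ^ 2 * s.F2 ≤ C ∧
      r * s.F1 ≤ C := by
  obtain ⟨B, hB, hTb, -, hρ⟩ := Q.exists_rho_bd
  obtain ⟨Cb, rb, hCb, hbeta⟩ := Sol.beta' (Q := Q) (M := M) hBe
  set c := 48 * B ^ 3 * (1 + |M|) with hc
  have hM := abs_nonneg M
  have hc1 : 1 ≤ c := by
    have : 1 ≤ B ^ 3 := one_le_pow₀ hB
    nlinarith
  set K := ∑ j, |topc D j| with hK
  have hK0 : 0 ≤ K := Finset.sum_nonneg fun _ _ => abs_nonneg _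
  set K' := K + 9 * c ^ 2 * B * (2 * Cb + 1) with hK'
  have hK'0 : 0 ≤ K' := by positivity
  set C0 := 2 * B * K' + 1 with hC0
  have h0 : 0 ≤ B * K' := by positivity
  have h00 : 0 ≤ Cb * (C0 + 1) := by positivity
  have h01 : 0 ≤ 4 * B * Cb * (9 * c ^ 2 * B) := by positivity
  refine ⟨C0 + Cb * (C0 + 1), 1 + |rb| + 4 * B * Cb * (9 * c ^ 2 * B), by linarith,
    by have := abs_nonneg rb; linarith, ?_⟩
  intro r u s hr
  have hrb0 := abs_nonneg rb
  have hr1 : 1 ≤ r := by linarith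
  have hrb : rb ≤ r := by have := le_abs_self rb; linarith
  have hr4 : 4 * B * Cb * (9 * c ^ 2 * B) ≤ r := by linarith
  have hr0 : 0 < r := by linarith
  have hE1 := s.E1_nonneg
  have hE2 := s.E2_nonneg
  have hF1 := s.F1_nonneg
  have hF2 := s.F2_nonneg
  have h1 := s.le_G hρ
  have h2 := s.G_le hT hF hA hB hTb hρ hr1
  rw [← hc, ← hK] at h2
  have h3 := s.int_Er_le (ε := 1 / (12 * c * B)) (by positivity) hr1
  have h4 := hbeta r u s hrb
  obtain ⟨h5, h6⟩ := energy_arith hB hc1 hCb hr1 hE1 hE2 hF1 hr4 (h1.trans h2) h3 h4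
  rw [← hK'] at h5 h6
  have h7 : s.E1 ≤ C0 := by linarith
  have h8 : r * s.E2 ≤ C0 := by
    have : 2 * K' ≤ 2 * B * K' := by nlinarith
    linarith
  have h9 : r * (s.F1 + r * s.F2) ≤ Cb * (C0 + 1) := by
    calc r * (s.F1 + r * s.F2) ≤ r * (Cb / r * (s.E1 + 1)) :=
          mul_le_mul_of_nonneg_left h4 hr0.le
      _ = Cb * (s.E1 + 1) := by field_simp
      _ ≤ _ := mul_le_mul_of_nonneg_left (by linarith) hCb
  have h10 : 0 ≤ r * s.F1 := by positivity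
  have h11 : 0 ≤ r ^ 2 * s.F2 := by positivity
  have hC0' : 0 ≤ C0 := by positivity
  refine ⟨by linarith, by linarith, ?_, ?_⟩
  · nlinarith
  · nlinarith

/-! ## The `L¹` bound -/

lemma int_mono_on {f g : R4 → ℝ} (hf : Continuous f) (hg : Continuous g)
    (h : ∀ x ∈ cube, f x ≤ g x) : ∫ x in cube, f x ≤ ∫ x in cube, g x :=
  setIntegral_mono_on (intc hf) (intc hg) measurableSet_Icc h

lemma Sol.int_beta {C : ℝ} (hC : 1 ≤ C) (h : r ^ 2 * s.F2 ≤ C) :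
    ∫ x in cube, r * ‖s.β x‖ ≤ C := by
  have c := s.cβ
  have h1 := int_sq_le (f := fun x => r * ‖s.β x‖) (by fun_prop)
  have h2 : ∫ x in cube, (r * ‖s.β x‖) ^ 2 = r ^ 2 * s.F2 := by
    simp_rw [mul_pow]
    rw [integral_const_mul]
    rfl
  rw [h2] at h1
  by_contra hcon
  push Not at hcon
  nlinarith

lemma Sol.L1 (hT : TOP_statement) {B C : ℝ} (hB : 1 ≤ B) (hTb : ∀ x j k, |Q.T x j k| ≤ B)
    (hρ : ∀ u, len u = 1 → ∀ x, 1 / B ≤ Q.rho u x ∧ Q.rho u x ≤ B) (hr : 1 ≤ r) (hC : 1 ≤ C)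
    (h : r ^ 2 * s.F2 ≤ C) :
    r * ∫ x in cube, |1 - ‖s.α x‖ ^ 2| ≤ ∑ j, |topc D j| + 12 * B ^ 2 * (1 + |M|) * C
      + 5 * |M| := by
  set c4 := 4 * B ^ 2 * (1 + |M|) with hc4
  have hM := abs_nonneg M
  have h1 : ∀ x, r * |1 - ‖s.α x‖ ^ 2| ≤
      ∑ j, u j * w4 (fun p q => dd s.a x p q) (fun p q => (tri D j).val x p q) +
      (3 * c4 * (r * ‖s.β x‖) + 5 * |M|) := by
    intro x
    have h2 : ∀ j, u j ^ 2 * (r * (1 - ‖s.α x‖ ^ 2)) - (c4 * (r * ‖s.β x‖) + |M|) ≤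
        u j * w4 (fun p q => dd s.a x p q) (fun p q => (tri D j).val x p q) := by
      intro j
      have h3 := s.F_le hB hTb hρ hr x j
      rw [← hc4] at h3
      have h4 := s.u_le j
      set W := w4 (fun p q => dd s.a x p q) (fun p q => (tri D j).val x p q)
      have h5 : |u j * (W - r * (1 - ‖s.α x‖ ^ 2) * u j)| ≤ c4 * (r * ‖s.β x‖) + |M| := by
        rw [abs_mul]
        calc |u j| * |W - r * (1 - ‖s.α x‖ ^ 2) * u j| ≤ 1 * (c4 * (r * ‖s.β x‖) + |M|) :=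
              mul_le_mul h4 h3 (abs_nonneg _) zero_le_one
          _ = _ := one_mul _
      have h6 := (abs_le.1 h5).1
      linarith
    have h3 := Finset.sum_le_sum fun j (_ : j ∈ Finset.univ) => h2 j
    rw [Finset.sum_sub_distrib, ← Finset.sum_mul, s.u_sq] at h3
    simp only [Finset.sum_const, Finset.card_univ, Fintype.card_fin, nsmul_eq_mul] at h3
    push_cast at h3
    have h4 : r * |1 - ‖s.α x‖ ^ 2| ≤ r * (1 - ‖s.α x‖ ^ 2) + 2 * |M| := by
      have h5 := s.max x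
      have h6 : M / r ≤ |M| / r := div_le_div_of_nonneg_right (le_abs_self M) (by linarith)
      have h7 : -(|M| / r) ≤ 1 - ‖s.α x‖ ^ 2 := by
        have := sq_nonneg ‖s.β x‖
        linarith
      have h8 : |1 - ‖s.α x‖ ^ 2| ≤ (1 - ‖s.α x‖ ^ 2) + 2 * (|M| / r) := by
        have h9 : 0 ≤ |M| / r := by positivity
        rcases abs_cases (1 - ‖s.α x‖ ^ 2) with h10 | h10 <;> linarith
      have h9 : r * (|M| / r) = |M| := by field_simp
      calc _ ≤ r * ((1 - ‖s.α x‖ ^ 2) + 2 * (|M| / r)) :=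
            mul_le_mul_of_nonneg_left h8 (by linarith)
        _ = r * (1 - ‖s.α x‖ ^ 2) + 2 * (r * (|M| / r)) := by ring
        _ = _ := by rw [h9]
    linarith
  have cb := s.cβ
  have ca := s.cα
  have cW : ∀ j, Continuous fun x => u j * w4 (fun p q => dd s.a x p q)
      (fun p q => (tri D j).val x p q) := fun j => continuous_const.mul (s.cW j)
  have cW' : Continuous fun x => ∑ j, u j * w4 (fun p q => dd s.a x p q)
      (fun p q => (tri D j).val x p q) := continuous_finsetSum _ fun j _ => cW j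
  have h2 := int_mono (f := fun x => r * |1 - ‖s.α x‖ ^ 2|)
    (g := fun x => ∑ j, u j * w4 (fun p q => dd s.a x p q) (fun p q => (tri D j).val x p q) +
      (3 * c4 * (r * ‖s.β x‖) + 5 * |M|)) (by fun_prop) (cW'.add (by fun_prop)) h1
  rw [integral_const_mul, integral_add (intc cW') (intc (by fun_prop)),
    integral_add (intc (by fun_prop)) (intc (by fun_prop)), integral_const_mul, int_const_cube,
    integral_finsetSum _ (fun j _ => (intc (cW j)))] at h2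
  simp_rw [integral_const_mul (u _), s.int_W hT] at h2
  have h3 := s.sum_top_le
  have h4 := s.int_beta hC h
  have h5 : 3 * c4 * ∫ x in cube, r * ‖s.β x‖ ≤ 3 * c4 * C :=
    mul_le_mul_of_nonneg_left h4 (by positivity)
  have h6 : 3 * c4 * C = 12 * B ^ 2 * (1 + |M|) * C := by rw [hc4]; ring
  linarith

/-! ## The curvature bound -/

lemma hat_sq (Φ : Fin 4 → Fin 4 → ℝ) (h : ∀ a c, Φ a c = - Φ c a) :
    ∑ a, ∑ c, Φ a c ^ 2 = 2 * (∑ k, hat Φ k ^ 2) - 2 * wdA Φ Φ := by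
  have h0 : ∀ a, Φ a a = 0 := fun a => by have := h a a; linarith
  simp only [Fin.sum_univ_four, Fin.sum_univ_three, hat, wdA, h0]
  simp only [Matrix.cons_val_zero, Matrix.cons_val_one, Matrix.cons_val]
  rw [h 1 0, h 2 0, h 3 0, h 2 1, h 3 1, h 3 2]
  ring

lemma dd_anti (a : R4 → R4 →L[ℝ] ℝ) (x p q : R4) : dd a x p q = - dd a x q p := by
  simp [dd]

lemma dd_self (a : R4 → R4 →L[ℝ] ℝ) (x p : R4) : dd a x p p = 0 := by
  simp [dd]

lemma Sol.hat_le (hF : FRM_statement) {B : ℝ} (hB : 1 ≤ B) (hTb : ∀ x j k, |Q.T x j k| ≤ B)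
    (hTi : ∀ x j k, |(Q.T x)⁻¹ j k| ≤ B)
    (hρ : ∀ u, len u = 1 → ∀ x, 1 / B ≤ Q.rho u x ∧ Q.rho u x ≤ B) (hr : 1 ≤ r) (x : R4) :
    ∑ k, hat (fr (fun a => Q.b a x) (fun p q => dd s.a x p q)) k ^ 2 ≤
      81 * B ^ 2 * (r * (r * (1 - ‖s.α x‖ ^ 2) ^ 2) +
        (4 * B ^ 2 * (1 + |M|)) ^ 2 * (r ^ 2 * ‖s.β x‖ ^ 2) + |M| ^ 2) := by
  set c4 := 4 * B ^ 2 * (1 + |M|) with hc4
  have hM := abs_nonneg M
  set h := hat (fr (fun a => Q.b a x) (fun p q => dd s.a x p q)) with hh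
  set W : Fin 3 → ℝ := fun j => w4 (fun p q => dd s.a x p q) (fun p q => (tri D j).val x p q)
    with hW
  have h1 : ∀ j, W j = ∑ k, Q.T x j k * h k := fun j =>
    (hF D Q x).2.1 (dd s.a x) (fun p => dd_self _ _ _) j
  have h2 : (Q.T x).mulVec h = W := by
    funext j
    rw [h1]
    rfl
  have h3 : h = (Q.T x)⁻¹.mulVec W := by
    rw [← h2, Matrix.mulVec_mulVec, Matrix.nonsing_inv_mul _ (Ne.isUnit (Q.T_det x)),
      Matrix.one_mulVec]
  set m := r * |1 - ‖s.α x‖ ^ 2| + c4 * (r * ‖s.β x‖) + |M| with hm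
  have hm0 : 0 ≤ m := by
    have := norm_nonneg (s.β x)
    positivity
  have h4 : ∀ j, |W j| ≤ m := by
    intro j
    have h5 := s.F_le hB hTb hρ hr x j
    rw [← hc4] at h5
    have h6 := s.u_le j
    have h7 : |r * (1 - ‖s.α x‖ ^ 2) * u j| ≤ r * |1 - ‖s.α x‖ ^ 2| := by
      rw [abs_mul, abs_mul, abs_of_pos s.r_pos]
      have : 0 ≤ r * |1 - ‖s.α x‖ ^ 2| := by
        have := s.r_pos
        positivity
      nlinarith
    have h8 := abs_add_le (W j - r * (1 - ‖s.α x‖ ^ 2) * u j) (r * (1 - ‖s.α x‖ ^ 2) * u j)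
    rw [sub_add_cancel] at h8
    have h9 : |W j - r * (1 - ‖s.α x‖ ^ 2) * u j| ≤ c4 * (r * ‖s.β x‖) + |M| := h5
    linarith
  have h5 : ∀ k, |h k| ≤ 3 * B * m := by
    intro k
    rw [h3]
    simp only [Matrix.mulVec, dotProduct]
    refine (Finset.abs_sum_le_sum_abs _ _).trans ?_
    calc ∑ j, |(Q.T x)⁻¹ k j * W j| ≤ ∑ _j : Fin 3, B * m := by
          refine Finset.sum_le_sum fun j _ => ?_
          rw [abs_mul]
          exact mul_le_mul (hTi x k j) (h4 j) (abs_nonneg _) (by linarith)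
      _ = 3 * B * m := by simp; ring
  have h6 : ∀ k, h k ^ 2 ≤ 9 * B ^ 2 * m ^ 2 := by
    intro k
    have := sq_le_sq' (abs_le.1 (h5 k)).1 (abs_le.1 (h5 k)).2
    nlinarith
  have h7 : m ^ 2 ≤ 3 * (r * (r * (1 - ‖s.α x‖ ^ 2) ^ 2) + c4 ^ 2 * (r ^ 2 * ‖s.β x‖ ^ 2) +
      |M| ^ 2) := by
    have e1 : ∀ a b c : ℝ, (a + b + c) ^ 2 ≤ 3 * (a ^ 2 + b ^ 2 + c ^ 2) := by
      intro a b c
      nlinarith [sq_nonneg (a - b), sq_nonneg (b - c), sq_nonneg (a - c)]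
    refine (e1 _ _ _).trans (le_of_eq ?_)
    rw [mul_pow, sq_abs]
    ring
  calc ∑ k, h k ^ 2 ≤ ∑ _k : Fin 3, 9 * B ^ 2 * m ^ 2 := Finset.sum_le_sum fun k _ => h6 k
    _ = 27 * B ^ 2 * m ^ 2 := by simp; ring
    _ ≤ 27 * B ^ 2 * (3 * (r * (r * (1 - ‖s.α x‖ ^ 2) ^ 2) + c4 ^ 2 * (r ^ 2 * ‖s.β x‖ ^ 2) +
      |M| ^ 2)) := mul_le_mul_of_nonneg_left h7 (by positivity)
    _ = _ := by ring

lemma fr_anti (a : R4 → R4 →L[ℝ] ℝ) (x : R4) (b : Fin 4 → R4) (i j : Fin 4) :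
    fr b (fun p q => dd a x p q) i j = - fr b (fun p q => dd a x p q) j i :=
  dd_anti _ _ _ _

/-- the full curvature in the coordinate frame -/
lemma dd_le (Q : Quat D) : ∃ C : ℝ, 0 ≤ C ∧ ∀ (a : R4 → R4 →L[ℝ] ℝ), ∀ x ∈ cube,
    ∑ i, ∑ j, dd a x (e i) (e j) ^ 2 ≤
      C * ∑ i, ∑ j, fr (fun c => Q.b c x) (fun p q => dd a x p q) i j ^ 2 := by
  obtain ⟨C, g, hC0, hg, hgC⟩ := H103.frame_inv Q
  refine ⟨256 * C ^ 4, by positivity, fun a x hx => ?_⟩
  set Φ := fr (fun c => Q.b c x) (fun p q => dd a x p q) with hΦ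
  set S := ∑ i, ∑ j, Φ i j ^ 2 with hS
  have h1 : ∀ i j, dd a x (e i) (e j) ^ 2 ≤ 16 * C ^ 4 * S := by
    intro i j
    have h2 : dd a x (e i) (e j) = ∑ p : Fin 4 × Fin 4, (g x p.1 i * g x p.2 j) * Φ p.1 p.2 := by
      rw [hg x i, hg x j, Fintype.sum_prod_type]
      simp only [map_sum, map_smul, sum_apply, smul_apply, smul_eq_mul, hΦ, fr]
      rw [Finset.sum_comm]
      simp only [Finset.mul_sum]
      refine Finset.sum_congr rfl fun c _ => Finset.sum_congr rfl fun d _ => ?_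
      ring
    rw [h2]
    have h3 := Finset.sum_mul_sq_le_sq_mul_sq (Finset.univ : Finset (Fin 4 × Fin 4))
      (fun p => g x p.1 i * g x p.2 j) (fun p => Φ p.1 p.2)
    refine h3.trans ?_
    have h4 : ∑ p : Fin 4 × Fin 4, (g x p.1 i * g x p.2 j) ^ 2 ≤ 16 * C ^ 4 := by
      calc _ ≤ ∑ _p : Fin 4 × Fin 4, C ^ 4 := by
            refine Finset.sum_le_sum fun p _ => ?_
            have h5 := hgC x hx p.1 i
            have h6 := hgC x hx p.2 j
            have h7 : |g x p.1 i * g x p.2 j| ≤ C * C := by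
              rw [abs_mul]; exact mul_le_mul h5 h6 (abs_nonneg _) hC0
            have h8 := sq_le_sq' (abs_le.1 h7).1 (abs_le.1 h7).2
            calc _ ≤ _ := h8
              _ = _ := by ring
        _ = _ := by simp
    have h5 : ∑ p : Fin 4 × Fin 4, Φ p.1 p.2 ^ 2 = S := by
      rw [Fintype.sum_prod_type]
    rw [h5]
    refine mul_le_mul_of_nonneg_right h4 ?_
    exact Finset.sum_nonneg fun _ _ => Finset.sum_nonneg fun _ _ => sq_nonneg _
  calc _ ≤ ∑ _i : Fin 4, ∑ _j : Fin 4, 16 * C ^ 4 * S :=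
        Finset.sum_le_sum fun i _ => Finset.sum_le_sum fun j _ => h1 i j
    _ = _ := by simp; ring

lemma Sol.cont_fr (i j : Fin 4) :
    Continuous fun x => fr (fun c => Q.b c x) (fun p q => dd s.a x p q) i j := by
  have h1 : Continuous (fderiv ℝ s.a) := s.a_smooth.continuous_fderiv (by simp)
  have hi := (Q.b_smooth i).continuous
  have hj := (Q.b_smooth j).continuous
  simp only [fr, dd, sub_apply, ContinuousLinearMap.flip_apply]
  exact ((h1.clm_apply hi).clm_apply hj).sub ((h1.clm_apply hj).clm_apply hi)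

theorem EN (hBe : BETA_statement) (hT : TOP_statement) (hF : FRM_statement)
    (hA : ALG_statement) : EN_statement := by
  intro D Q M
  obtain ⟨B, hB, hTb, hTi, hρ⟩ := Q.exists_rho_bd
  obtain ⟨C, r₀, hC, hr₀, hen⟩ := Sol_energy Q M hBe hT hF hA
  obtain ⟨Cd, hCd, hdd⟩ := dd_le Q
  set C1 := ∑ j, |topc D j| + 12 * B ^ 2 * (1 + |M|) * C + 5 * |M| with hC1
  set C2 := Cd * (2 * (81 * B ^ 2 * (C + (4 * B ^ 2 * (1 + |M|)) ^ 2 * C + |M| ^ 2))) with hC2
  have hM := abs_nonneg M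
  have hK : 0 ≤ ∑ j, |topc D j| := Finset.sum_nonneg fun _ _ => abs_nonneg _
  have hC10 : 0 ≤ C1 := by positivity
  have hC20 : 0 ≤ C2 := by positivity
  refine ⟨C + C1 + C2, r₀, fun r u s hr => ?_⟩
  have hr1 : 1 ≤ r := hr₀.trans hr
  have hr0 : 0 < r := by linarith
  obtain ⟨e1, e2, e3, e4⟩ := hen r u s hr
  refine ⟨?_, by rw [Sol.E2] at e2; linarith, by rw [Sol.F2] at e3; linarith, ?_, ?_, ?_⟩
  · have : ∀ x, ∑ c, ‖cov s.a s.α x (Q.b c x)‖ ^ 2 = nz (s.z x) ^ 2 := fun x => by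
      rw [nz_sq]; rfl
    simp_rw [this]
    rw [Sol.E1] at e1
    linarith
  · have : ∀ x, ∑ c, ‖cov s.a s.β x (Q.b c x)‖ ^ 2 = nz (s.y x) ^ 2 := fun x => by
      rw [nz_sq]; rfl
    simp_rw [this]
    rw [Sol.F1] at e4
    linarith
  · have := s.L1 hT hB hTb hρ hr1 hC e3
    rw [← hC1] at this
    linarith
  · have cf := s.cont_fr
    have cα := s.cα
    have cβ := s.cβ
    set Φ : R4 → Fin 4 → Fin 4 → ℝ := fun x => fr (fun c => Q.b c x) (fun p q => dd s.a x p q)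
      with hΦ
    have cf' : ∀ i j, Continuous fun x => Φ x i j := cf
    have cdd : Continuous fun x => ∑ i, ∑ j, dd s.a x (e i) (e j) ^ 2 :=
      continuous_finsetSum _ fun i _ => continuous_finsetSum _ fun j _ =>
        (cont_dd s.a_smooth _ _).pow 2
    have h1 : ∫ x in cube, ∑ i, ∑ j, dd s.a x (e i) (e j) ^ 2 ≤
        ∫ x in cube, Cd * ∑ i, ∑ j, Φ x i j ^ 2 :=
      int_mono_on cdd (by fun_prop) fun x hx => hdd s.a x hx
    rw [integral_const_mul] at h1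
    have h2 : ∀ x, ∑ i, ∑ j, Φ x i j ^ 2 ≤ 2 * (81 * B ^ 2 * (r * (r * (1 - ‖s.α x‖ ^ 2) ^ 2) +
        (4 * B ^ 2 * (1 + |M|)) ^ 2 * (r ^ 2 * ‖s.β x‖ ^ 2) + |M| ^ 2)) -
        2 * w4 (fun p q => dd s.a x p q) (fun p q => dd s.a x p q) := by
      intro x
      rw [hat_sq (Φ x) (fun i j => fr_anti _ _ _ _ _),
        (hF D Q x).1 (dd s.a x) (dd s.a x) (fun p => dd_self _ _ _) (fun p => dd_self _ _ _)]
      have := s.hat_le hF hB hTb hTi hρ hr1 x
      linarith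
    have cw : Continuous fun x => w4 (fun p q => dd s.a x p q) (fun p q => dd s.a x p q) :=
      cont_w4 (fun p q => cont_dd s.a_smooth p q) (fun p q => cont_dd s.a_smooth p q)
    have h3 := int_mono (f := fun x => ∑ i, ∑ j, Φ x i j ^ 2)
      (g := fun x => 2 * (81 * B ^ 2 * (r * (r * (1 - ‖s.α x‖ ^ 2) ^ 2) +
        (4 * B ^ 2 * (1 + |M|)) ^ 2 * (r ^ 2 * ‖s.β x‖ ^ 2) + |M| ^ 2)) -
        2 * w4 (fun p q => dd s.a x p q) (fun p q => dd s.a x p q))
      (by fun_prop) (by fun_prop) h2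
    rw [integral_sub (intc (by fun_prop)) (intc (by fun_prop)), integral_const_mul,
      integral_const_mul, integral_const_mul,
      integral_add (intc (by fun_prop)) (intc (by fun_prop)),
      integral_add (intc (by fun_prop)) (intc (by fun_prop)), integral_const_mul,
      integral_const_mul, integral_const_mul, integral_const_mul, int_const_cube,
      (hT s.a s.α (tri D 0) s.a_smooth s.a_quasi s.α_smooth s.α_quasi).2.2] at h3
    have h4 : r * (r * ∫ x in cube, (1 - ‖s.α x‖ ^ 2) ^ 2) ≤ r * C :=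
      mul_le_mul_of_nonneg_left e2 hr0.le
    have h5 : (4 * B ^ 2 * (1 + |M|)) ^ 2 * (r ^ 2 * ∫ x in cube, ‖s.β x‖ ^ 2) ≤
        (4 * B ^ 2 * (1 + |M|)) ^ 2 * C * r := by
      have h6 : (4 * B ^ 2 * (1 + |M|)) ^ 2 * (r ^ 2 * ∫ x in cube, ‖s.β x‖ ^ 2) ≤
        (4 * B ^ 2 * (1 + |M|)) ^ 2 * C := mul_le_mul_of_nonneg_left e3 (by positivity)
      have h7 : 0 ≤ (4 * B ^ 2 * (1 + |M|)) ^ 2 * C := by positivity
      nlinarith
    have h6 : |M| ^ 2 ≤ |M| ^ 2 * r := by nlinarith [sq_nonneg |M|]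
    have h7 : ∫ x in cube, ∑ i, ∑ j, Φ x i j ^ 2 ≤
        2 * (81 * B ^ 2 * (C + (4 * B ^ 2 * (1 + |M|)) ^ 2 * C + |M| ^ 2)) * r := by
      refine h3.trans ?_
      have h8 : 81 * B ^ 2 * (r * (r * ∫ x in cube, (1 - ‖s.α x‖ ^ 2) ^ 2) +
          (4 * B ^ 2 * (1 + |M|)) ^ 2 * (r ^ 2 * ∫ x in cube, ‖s.β x‖ ^ 2) + |M| ^ 2) ≤
          81 * B ^ 2 * (r * C + (4 * B ^ 2 * (1 + |M|)) ^ 2 * C * r + |M| ^ 2 * r) :=
        mul_le_mul_of_nonneg_left (by linarith) (by positivity)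
      linarith
    have h8 : Cd * ∫ x in cube, ∑ i, ∑ j, Φ x i j ^ 2 ≤ C2 * r := by
      calc _ ≤ Cd * (2 * (81 * B ^ 2 * (C + (4 * B ^ 2 * (1 + |M|)) ^ 2 * C + |M| ^ 2)) * r) :=
            mul_le_mul_of_nonneg_left h7 hCd
        _ = _ := by rw [hC2]; ring
    have h9 : (C + C1 + C2) * r = C * r + C1 * r + C2 * r := by ring
    have h10 : 0 ≤ C * r := by positivity
    have h11 : 0 ≤ C1 * r := by positivity
    linarith

end Vale.Agent.P247.H647
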