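import Vale.Agent.P247.H647.Sta

/-!
# P247, Stage 2, S2: Pauli algebra and the key pointwise estimates
-/

open scoped ContDiff Topology
open Set MeasureTheory Filter Metric

noncomputable section

namespace Vale.Agent.P247.H647

open Vale.Agent.P247.H74 Vale.Agent.P247.H574

lemma opM_apply (M : Matrix (Fin 2) (Fin 2) ℂ) (f : Sp) (i : Fin 2) :
    opM M f i = ∑ j, M i j * f j := by
  simp [opM, Matrix.mulVec, dotProduct]

lemma pau0_apply (f : Sp) (i : Fin 2) : pau 0 f i = ![f 1, f 0] i := by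
  rw [pau, opM_apply]; fin_cases i <;> simp [pauM]

lemma pau1_apply (f : Sp) (i : Fin 2) :
    pau 1 f i = ![-Complex.I * f 1, Complex.I * f 0] i := by
  rw [pau, opM_apply]; fin_cases i <;> simp [pauM]

lemma pau2_apply (f : Sp) (i : Fin 2) : pau 2 f i = ![f 0, -f 1] i := by
  rw [pau, opM_apply]; fin_cases i <;> simp [pauM]

lemma inner_sp (f g : Sp) : inner ℂ f g = (starRingEnd ℂ) (f 0) * g 0 + (starRingEnd ℂ) (f 1) * g 1 := by
  rw [PiLp.inner_apply]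
  simp [Fin.sum_univ_two, mul_comm]

/-- `∑ vₖ Pₖ` -/
def P3 (v : Fin 3 → ℝ) : En := ∑ k, (v k : ℂ) • pau k

lemma P3_apply (v : Fin 3 → ℝ) (f : Sp) : P3 v f = ∑ k, (v k : ℂ) • pau k f := by
  simp [P3, Fin.sum_univ_three]

lemma P3_fin (v : Fin 3 → ℝ) (f : Sp) (i : Fin 2) : P3 v f i =
    ![(v 2 : ℂ) * f 0 + (v 0 - v 1 * Complex.I) * f 1,
      (v 0 + v 1 * Complex.I) * f 0 - (v 2 : ℂ) * f 1] i := by
  rw [P3_apply, Fin.sum_univ_three]
  simp only [PiLp.add_apply, PiLp.smul_apply, smul_eq_mul, pau0_apply, pau1_apply, pau2_apply]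
  fin_cases i <;> simp <;> ring

lemma P3_symm (v : Fin 3 → ℝ) (f g : Sp) : inner ℂ f (P3 v g) = inner ℂ (P3 v f) g := by
  rw [inner_sp, inner_sp, P3_fin, P3_fin, P3_fin, P3_fin]
  simp
  ring

lemma P3_sq (v : Fin 3 → ℝ) (f : Sp) : P3 v (P3 v f) = ((∑ k, v k ^ 2 : ℝ) : ℂ) • f := by
  ext i
  rw [P3_fin]
  simp only [P3_fin, PiLp.smul_apply, smul_eq_mul, Fin.sum_univ_three]
  fin_cases i <;> simp <;> ring_nf <;> simp

lemma P3_anti (v w : Fin 3 → ℝ) (f : Sp) :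
    P3 v (P3 w f) + P3 w (P3 v f) = (2 * (∑ k, v k * w k : ℝ) : ℂ) • f := by
  ext i
  simp only [PiLp.add_apply, P3_fin, PiLp.smul_apply, smul_eq_mul, Fin.sum_univ_three]
  fin_cases i <;> simp <;> ring_nf <;> simp

lemma len_nonneg (v : Fin 3 → ℝ) : 0 ≤ len v := Real.sqrt_nonneg _

lemma len_sq (v : Fin 3 → ℝ) : len v ^ 2 = ∑ k, v k ^ 2 :=
  Real.sq_sqrt (Finset.sum_nonneg fun _ _ => sq_nonneg _)

lemma norm_P3 (v : Fin 3 → ℝ) (f : Sp) : ‖P3 v f‖ = len v * ‖f‖ := by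
  have h : ‖P3 v f‖ ^ 2 = (len v * ‖f‖) ^ 2 := by
    have h1 : (‖P3 v f‖ ^ 2 : ℝ) = (inner ℂ (P3 v f) (P3 v f) : ℂ).re := by
      rw [inner_self_eq_norm_sq_to_K]; norm_cast
    rw [h1, ← P3_symm, P3_sq, inner_smul_right, mul_pow, len_sq, inner_self_eq_norm_sq_to_K,
      Complex.re_ofReal_mul]
    norm_cast
  exact (pow_left_inj₀ (norm_nonneg _) (mul_nonneg (len_nonneg _) (norm_nonneg _))
    two_ne_zero).1 h

lemma P3_add (v w : Fin 3 → ℝ) (f : Sp) : P3 (v + w) f = P3 v f + P3 w f := by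
  simp [P3_apply, add_smul, Finset.sum_add_distrib]

lemma P3_smul (t : ℝ) (v : Fin 3 → ℝ) (f : Sp) : P3 (t • v) f = (t : ℂ) • P3 v f := by
  simp [P3_apply, mul_smul, Finset.smul_sum]

/-! ## The Clifford matrices -/

lemma sig_fin (a : Fin 4) (f : Sp) (i : Fin 2) : sig a f i =
    ![![f 0, f 1], ![Complex.I * f 1, Complex.I * f 0], ![f 1, -f 0],
      ![Complex.I * f 0, -Complex.I * f 1]] a i := by
  rw [sig, opM_apply]
  fin_cases a <;> fin_cases i <;> simp [sigM, pauM, ← mul_assoc]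

lemma norm_sq_sp (f : Sp) : ‖f‖ ^ 2 = ‖f 0‖ ^ 2 + ‖f 1‖ ^ 2 := by
  rw [EuclideanSpace.norm_sq_eq]; simp [Fin.sum_univ_two]

lemma norm_sig (a : Fin 4) (f : Sp) : ‖sig a f‖ = ‖f‖ := by
  have h : ‖sig a f‖ ^ 2 = ‖f‖ ^ 2 := by
    rw [norm_sq_sp, norm_sq_sp, sig_fin, sig_fin]
    fin_cases a <;> simp [add_comm]
  exact (pow_left_inj₀ (norm_nonneg _) (norm_nonneg _) two_ne_zero).1 h

lemma symb_apply (ζ : Fin 4 → ℂ) (f : Sp) : symb ζ f = ∑ a, ζ a • sig a f := by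
  simp [symb, Fin.sum_univ_four]

/-- the length of an array of complex numbers -/
def nz (ζ : Fin 4 → ℂ) : ℝ := Real.sqrt (∑ a, ‖ζ a‖ ^ 2)

lemma nz_nonneg (ζ : Fin 4 → ℂ) : 0 ≤ nz ζ := Real.sqrt_nonneg _

lemma nz_sq (ζ : Fin 4 → ℂ) : nz ζ ^ 2 = ∑ a, ‖ζ a‖ ^ 2 :=
  Real.sq_sqrt (Finset.sum_nonneg fun _ _ => sq_nonneg _)

lemma norm_le_nz (ζ : Fin 4 → ℂ) (a : Fin 4) : ‖ζ a‖ ≤ nz ζ := by
  apply Real.le_sqrt_of_sq_le
  exact Finset.single_le_sum (f := fun a => ‖ζ a‖ ^ 2) (fun _ _ => sq_nonneg _)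
    (Finset.mem_univ a)

lemma norm_symb_le (ζ : Fin 4 → ℂ) (f : Sp) : ‖symb ζ f‖ ≤ 4 * nz ζ * ‖f‖ := by
  rw [symb_apply]
  calc ‖∑ a, ζ a • sig a f‖ ≤ ∑ a, ‖ζ a • sig a f‖ := norm_sum_le _ _
    _ ≤ ∑ _a : Fin 4, nz ζ * ‖f‖ := by
        refine Finset.sum_le_sum fun a _ => ?_
        rw [norm_smul, norm_sig]
        exact mul_le_mul_of_nonneg_right (norm_le_nz ζ a) (norm_nonneg _)
    _ = 4 * nz ζ * ‖f‖ := by simp; ring

/-- the self-dual part of the Jacobian is close to the direction of a spinor almost killed by the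
symbol -/
lemma hat_jz (hA : ALG_statement) (ζ : Fin 4 → ℂ) (n : Fin 3 → ℝ) (f : Sp) (hf : ‖f‖ = 1)
    (hn : P3 n f = f) :
    len (fun k => hat (jz ζ) k - nz ζ ^ 2 * n k) ≤ 4 * nz ζ * ‖symb ζ f‖ := by
  set w : Fin 3 → ℝ := fun k => hat (jz ζ) k - nz ζ ^ 2 * n k with hw
  have h1 : ∀ g : Sp, inner ℂ g (P3 w f) = - inner ℂ (symb ζ g) (symb ζ f) := by
    intro g
    have h2 := hA.1 ζ g f
    have h3 : P3 w f = P3 (hat (jz ζ)) f - ((nz ζ ^ 2 : ℝ) : ℂ) • f := by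
      have : w = hat (jz ζ) + (-(nz ζ ^ 2)) • n := by
        funext k; simp [hw]; ring
      rw [this, P3_add, P3_smul, hn]
      simp [sub_eq_add_neg]
    rw [h3, inner_sub_right, inner_smul_right, nz_sq, P3_apply]
    simp only [inner_sum, inner_smul_right]
    rw [h2]
    ring
  have h4 : ‖P3 w f‖ ^ 2 ≤ 4 * nz ζ * ‖P3 w f‖ * ‖symb ζ f‖ := by
    have h5 : (‖P3 w f‖ ^ 2 : ℝ) = ‖(inner ℂ (P3 w f) (P3 w f) : ℂ)‖ := by
      rw [inner_self_eq_norm_sq_to_K]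
      simp
    rw [h5, h1, norm_neg]
    exact (norm_inner_le_norm _ _).trans
      (mul_le_mul_of_nonneg_right (norm_symb_le _ _) (norm_nonneg _))
  rw [norm_P3, hf, mul_one] at h4
  rcases (len_nonneg w).eq_or_lt with h0 | h0
  · rw [← h0]
    have := nz_nonneg ζ
    positivity
  · have : len w * len w ≤ (4 * nz ζ * ‖symb ζ f‖) * len w := by nlinarith
    exact le_of_mul_le_mul_right this h0

end Vale.Agent.P247.H647
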