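import Vale.Agent.P247.H647.Pos1

/-!
# P247, Stage 2, S2: `POS_statement`
-/

open scoped ContDiff Topology
open Set MeasureTheory Filter Metric

noncomputable section

namespace Vale.Agent.P247.H647

open Vale.Agent.P247.H74 Vale.Agent.P247.H574

variable {D : Data}

/-! ## The curvature array -/

lemma vec_eq (v : R4) : v = ∑ p, v p • e p := by
  funext i
  simp [e, Finset.sum_apply, Pi.single_apply]

/-- the frame array in terms of the coordinate array -/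
lemma fa_le (Q : Quat D) : ∃ C : ℝ, 0 ≤ C ∧ ∀ (a : R4 → R4 →L[ℝ] ℝ) (x : R4),
    ∑ i, ∑ j, fr (fun c => Q.b c x) (fun p q => dd a x p q) i j ^ 2 ≤
      C * ∑ i, ∑ j, dd a x (e i) (e j) ^ 2 := by
  have h0 : ∀ c, ∃ B : ℝ, ∀ x, ‖Q.b c x‖ ≤ B := fun c =>
    Per4.bdd (Q.b_smooth c).continuous (Q.b_per c)
  choose B0 hB0 using h0
  set B := ∑ c, |B0 c| with hBdef
  have hB : ∀ c x i, |Q.b c x i| ≤ B := by
    intro c x i
    have h1 := norm_le_pi_norm (Q.b c x) i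
    rw [Real.norm_eq_abs] at h1
    have h2 := Finset.single_le_sum (f := fun c => |B0 c|) (fun _ _ => abs_nonneg _)
      (Finset.mem_univ c)
    have h3 := hB0 c x
    have h4 := le_abs_self (B0 c)
    linarith
  have hB0' : 0 ≤ B := Finset.sum_nonneg fun _ _ => abs_nonneg _
  refine ⟨256 * B ^ 4, by positivity, fun a x => ?_⟩
  set S := ∑ i, ∑ j, dd a x (e i) (e j) ^ 2 with hS
  have h1 : ∀ i j, fr (fun c => Q.b c x) (fun p q => dd a x p q) i j ^ 2 ≤ 16 * B ^ 4 * S := by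
    intro i j
    have h2 : fr (fun c => Q.b c x) (fun p q => dd a x p q) i j =
        ∑ p : Fin 4 × Fin 4, (Q.b i x p.1 * Q.b j x p.2) * dd a x (e p.1) (e p.2) := by
      simp only [fr]
      conv_lhs => rw [vec_eq (Q.b i x), vec_eq (Q.b j x)]
      rw [Fintype.sum_prod_type]
      simp only [map_sum, map_smul, sum_apply, smul_apply, smul_eq_mul]
      rw [Finset.sum_comm]
      simp only [Finset.mul_sum]
      refine Finset.sum_congr rfl fun c _ => Finset.sum_congr rfl fun d _ => ?_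
      ring
    rw [h2]
    have h3 := Finset.sum_mul_sq_le_sq_mul_sq (Finset.univ : Finset (Fin 4 × Fin 4))
      (fun p => Q.b i x p.1 * Q.b j x p.2) (fun p => dd a x (e p.1) (e p.2))
    refine h3.trans ?_
    have h4 : ∑ p : Fin 4 × Fin 4, (Q.b i x p.1 * Q.b j x p.2) ^ 2 ≤ 16 * B ^ 4 := by
      calc _ ≤ ∑ _p : Fin 4 × Fin 4, B ^ 4 := by
            refine Finset.sum_le_sum fun p _ => ?_
            have h7 : |Q.b i x p.1 * Q.b j x p.2| ≤ B * B := by
              rw [abs_mul]; exact mul_le_mul (hB i x p.1) (hB j x p.2) (abs_nonneg _) hB0'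
            have h8 := sq_le_sq' (abs_le.1 h7).1 (abs_le.1 h7).2
            calc _ ≤ _ := h8
              _ = _ := by ring
        _ = _ := by simp
    have h5 : ∑ p : Fin 4 × Fin 4, dd a x (e p.1) (e p.2) ^ 2 = S := by
      rw [Fintype.sum_prod_type]
    rw [h5]
    refine mul_le_mul_of_nonneg_right h4 ?_
    exact Finset.sum_nonneg fun _ _ => Finset.sum_nonneg fun _ _ => sq_nonneg _
  calc _ ≤ ∑ _i : Fin 4, ∑ _j : Fin 4, 16 * B ^ 4 * S :=
        Finset.sum_le_sum fun i _ => Finset.sum_le_sum fun j _ => h1 i j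
    _ = _ := by simp; ring

variable {Q : Quat D} {M r : ℝ} {u : Fin 3 → ℝ} (s : Sol Q M r u)

lemma Sol.cont_Fa (i j : Fin 4) : Continuous fun x => s.Fa x i j := s.cont_fr i j

lemma Sol.Ep_cont (η : ℝ) : Continuous (s.Ep η) := by
  unfold Sol.Ep
  have h1 := s.cnz
  have h2 := s.cny
  have h3 := s.cα
  have h4 := s.cβ
  have h5 := s.cont_Fa
  fun_prop

lemma int_comb {f1 f2 f3 f4 f5 : R4 → ℝ} (h1 : Continuous f1) (h2 : Continuous f2)
    (h3 : Continuous f3) (h4 : Continuous f4) (h5 : Continuous f5) (θ η : ℝ) :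
    ∫ x in cube, (θ * (f1 x + 1 / 2 * f2 x + 3 * f3 x + f4 x + 5 / 2) +
      η * (f1 x + f4 x + f5 x)) =
    θ * ((∫ x in cube, f1 x) + 1 / 2 * (∫ x in cube, f2 x) + 3 * (∫ x in cube, f3 x) +
      (∫ x in cube, f4 x) + 5 / 2) +
      η * ((∫ x in cube, f1 x) + (∫ x in cube, f4 x) + ∫ x in cube, f5 x) := by
  rw [integral_add (intc (by fun_prop)) (intc (by fun_prop)), integral_const_mul,
    integral_const_mul, integral_add (intc (by fun_prop)) (intc (by fun_prop)),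
    integral_add (intc (by fun_prop)) (intc (by fun_prop)),
    integral_add (intc (by fun_prop)) (intc (by fun_prop)),
    integral_add (intc (by fun_prop)) (intc (by fun_prop)),
    integral_add (intc (by fun_prop)) (intc (by fun_prop)),
    integral_add (intc (by fun_prop)) (intc (by fun_prop)),
    integral_const_mul, integral_const_mul, int_const_cube]

lemma Ep_pt {r θ η Z Y b q S : ℝ} (hr : 1 ≤ r) (hθ : 0 < θ) (hθr : θ ^ 2 * r = 1) :
    (Y + b) * Z + η * Z ^ 2 + q * (r * b + 1) + η * (r * q ^ 2) +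
      η / r * S + 1 / r * (r * b + 1) ^ 2 ≤
    θ * (Z ^ 2 + 1 / 2 * (r * Y ^ 2) + 3 * (r ^ 2 * b ^ 2) + r * q ^ 2 + 5 / 2) +
      η * (Z ^ 2 + r * q ^ 2 + 1 / r * S) := by
  have hr0 : 0 < r := by linarith
  have hθ1 : θ ≤ 1 := by nlinarith
  have hθi : 1 / r = θ ^ 2 := by field_simp; linarith
  have a1 : (Y + b) * Z ≤ θ * (Z ^ 2 + 1 / 2 * (r * Y ^ 2) + 1 / 2 * (r ^ 2 * b ^ 2)) := by
    have e1 : (Y + b) * Z = θ * ((Y + b) * Z * (θ * r)) := by
      calc (Y + b) * Z = (Y + b) * Z * (θ ^ 2 * r) := by rw [hθr, mul_one]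
        _ = _ := by ring
    rw [e1]
    refine mul_le_mul_of_nonneg_left ?_ hθ.le
    have e2 : (θ * r) ^ 2 = r := by
      calc (θ * r) ^ 2 = (θ ^ 2 * r) * r := by ring
        _ = r := by rw [hθr, one_mul]
    have e3 : (Y + b) * Z * (θ * r) ≤ Z ^ 2 + 1 / 4 * ((Y + b) * (θ * r)) ^ 2 := by
      nlinarith [sq_nonneg (Z - 1 / 2 * ((Y + b) * (θ * r)))]
    have e4 : ((Y + b) * (θ * r)) ^ 2 = (Y + b) ^ 2 * r := by rw [mul_pow, e2]
    rw [e4] at e3
    have e5 : (Y + b) ^ 2 * r ≤ 2 * (r * Y ^ 2) + 2 * (r ^ 2 * b ^ 2) := by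
      have e6 : (Y + b) ^ 2 ≤ 2 * Y ^ 2 + 2 * b ^ 2 := by nlinarith [sq_nonneg (Y - b)]
      have e7 : r * b ^ 2 ≤ r ^ 2 * b ^ 2 := by
        have : r ≤ r ^ 2 := by nlinarith
        exact mul_le_mul_of_nonneg_right this (sq_nonneg b)
      nlinarith
    linarith
  have a2 : q * (r * b + 1) ≤ θ * (r * q ^ 2 + 1 / 2 * (r ^ 2 * b ^ 2) + 1 / 2) := by
    have e1 : q * (r * b + 1) = θ * (q * (r * b + 1) * (θ * r)) := by
      calc q * (r * b + 1) = q * (r * b + 1) * (θ ^ 2 * r) := by rw [hθr, mul_one]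
        _ = _ := by ring
    rw [e1]
    refine mul_le_mul_of_nonneg_left ?_ hθ.le
    have e2 : (θ * r * q) ^ 2 = r * q ^ 2 := by
      calc (θ * r * q) ^ 2 = (θ ^ 2 * r) * (r * q ^ 2) := by ring
        _ = _ := by rw [hθr, one_mul]
    have e3 : (θ * r * q) * (r * b + 1) ≤ (θ * r * q) ^ 2 + 1 / 4 * (r * b + 1) ^ 2 := by
      nlinarith [sq_nonneg ((θ * r * q) - 1 / 2 * (r * b + 1))]
    rw [e2] at e3
    have e4 : (r * b + 1) ^ 2 ≤ 2 * (r ^ 2 * b ^ 2) + 2 := by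
      nlinarith [sq_nonneg (r * b - 1)]
    have e5 : q * (r * b + 1) * (θ * r) = (θ * r * q) * (r * b + 1) := by ring
    rw [e5]
    linarith
  have a3 : 1 / r * (r * b + 1) ^ 2 ≤ θ * (2 * (r ^ 2 * b ^ 2) + 2) := by
    rw [hθi]
    have e4 : (r * b + 1) ^ 2 ≤ 2 * (r ^ 2 * b ^ 2) + 2 := by
      nlinarith [sq_nonneg (r * b - 1)]
    have e5 : θ ^ 2 ≤ θ := by nlinarith
    exact mul_le_mul e5 e4 (sq_nonneg _) hθ.le
  have a4 : η / r * S = η * (1 / r * S) := by ring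
  rw [a4]
  linarith

/-- the integral of the error -/
lemma Sol.int_Ep {C θ η : ℝ} (hr : 1 ≤ r) (hθ : 0 < θ) (hθr : θ ^ 2 * r = 1) (hη : 0 ≤ η)
    (h1 : s.E1 ≤ C) (h2 : r * s.E2 ≤ C) (h3 : r ^ 2 * s.F2 ≤ C) (h4 : r * s.F1 ≤ C)
    (h5 : ∫ x in cube, ∑ i, ∑ j, s.Fa x i j ^ 2 ≤ C * r) :
    ∫ x in cube, s.Ep η x ≤ (θ + η) * (6 * C + 3) := by
  have hr0 : 0 < r := by linarith
  have hθ1 : θ ≤ 1 := by nlinarith
  have hθi : 1 / r = θ ^ 2 := by field_simp; linarith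
  have hC : 0 ≤ C := s.E1_nonneg.trans h1
  have hpt : ∀ x, s.Ep η x ≤ θ * (nz (s.z x) ^ 2 + 1 / 2 * (r * nz (s.y x) ^ 2) +
      3 * (r ^ 2 * ‖s.β x‖ ^ 2) + r * (1 - ‖s.α x‖ ^ 2) ^ 2 + 5 / 2) +
      η * (nz (s.z x) ^ 2 + r * (1 - ‖s.α x‖ ^ 2) ^ 2 +
        1 / r * ∑ i, ∑ j, s.Fa x i j ^ 2) := by
    intro x
    have h := Ep_pt (η := η) (Z := nz (s.z x)) (Y := nz (s.y x)) (q := |1 - ‖s.α x‖ ^ 2|)
      (b := ‖s.β x‖) (S := ∑ i, ∑ j, s.Fa x i j ^ 2) hr hθ hθr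
    rw [sq_abs] at h
    exact h
  have c1 : Continuous fun x => nz (s.z x) ^ 2 := s.cnz.pow 2
  have c2 : Continuous fun x => r * nz (s.y x) ^ 2 := continuous_const.mul (s.cny.pow 2)
  have c3 : Continuous fun x => r ^ 2 * ‖s.β x‖ ^ 2 := continuous_const.mul (s.cβ.pow 2)
  have c4 : Continuous fun x => r * (1 - ‖s.α x‖ ^ 2) ^ 2 :=
    continuous_const.mul ((continuous_const.sub (s.cα.pow 2)).pow 2)
  have c5 : Continuous fun x => 1 / r * ∑ i, ∑ j, s.Fa x i j ^ 2 :=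
    continuous_const.mul (continuous_finsetSum _ fun i _ => continuous_finsetSum _ fun j _ =>
      (s.cont_Fa i j).pow 2)
  have c6 : Continuous fun x => θ * (nz (s.z x) ^ 2 + 1 / 2 * (r * nz (s.y x) ^ 2) +
      3 * (r ^ 2 * ‖s.β x‖ ^ 2) + r * (1 - ‖s.α x‖ ^ 2) ^ 2 + 5 / 2) +
      η * (nz (s.z x) ^ 2 + r * (1 - ‖s.α x‖ ^ 2) ^ 2 +
        1 / r * ∑ i, ∑ j, s.Fa x i j ^ 2) :=
    (continuous_const.mul ((((c1.add (continuous_const.mul c2)).add
      (continuous_const.mul c3)).add c4).add continuous_const)).add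
      (continuous_const.mul ((c1.add c4).add c5))
  refine (int_mono (s.Ep_cont η) c6 hpt).trans ?_
  rw [int_comb c1 c2 c3 c4 c5, integral_const_mul, integral_const_mul, integral_const_mul,
    integral_const_mul]
  change θ * (s.E1 + 1 / 2 * (r * s.F1) + 3 * (r ^ 2 * s.F2) + r * s.E2 + 5 / 2) +
    η * (s.E1 + r * s.E2 + 1 / r * ∫ x in cube, ∑ i, ∑ j, s.Fa x i j ^ 2) ≤ _
  have h6 : 1 / r * ∫ x in cube, ∑ i, ∑ j, s.Fa x i j ^ 2 ≤ C := by
    rw [one_div, inv_mul_le_iff₀ hr0]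
    linarith
  have h7 : θ * (s.E1 + 1 / 2 * (r * s.F1) + 3 * (r ^ 2 * s.F2) + r * s.E2 + 5 / 2) ≤
      θ * (6 * C + 3) := mul_le_mul_of_nonneg_left (by linarith) hθ.le
  have h8 : η * (s.E1 + r * s.E2 + 1 / r * ∫ x in cube, ∑ i, ∑ j, s.Fa x i j ^ 2) ≤
      η * (6 * C + 3) := mul_le_mul_of_nonneg_left (by linarith) hη
  linarith

/-! ## The coefficient -/

variable (Q)

lemma Quat.dv_cont (v : Fin 3 → ℝ) (k : Fin 3) : Continuous fun x => Q.dv x v k := by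
  simp only [Quat.dv, Matrix.mulVec, dotProduct]
  exact continuous_finsetSum _ fun j _ => (Q.Ti_cont k j).mul continuous_const

lemma Quat.rho_cont (v : Fin 3 → ℝ) : Continuous fun x => Q.rho v x := by
  unfold Quat.rho len
  have := Q.dv_cont v
  fun_prop

lemma Quat.rho_pos' {v : Fin 3 → ℝ} (hv : len v = 1) (x : R4) : 0 < Q.rho v x := by
  obtain ⟨B, hB, -, -, h⟩ := Q.exists_rho_bd
  exact lt_of_lt_of_le (by positivity) (h v hv x).1

lemma Quat.ar_cont {φ : R4 → F2} (hφ : Continuous φ) (a c : Fin 4) :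
    Continuous fun x => Q.ar φ x a c :=
  (hφ.clm_apply (Q.b_smooth a).continuous).clm_apply (Q.b_smooth c).continuous

lemma hat_cont {f : R4 → Fin 4 → Fin 4 → ℝ} (hf : ∀ a c, Continuous fun x => f x a c) (k : Fin 3) :
    Continuous fun x => hat (f x) k := by
  fin_cases k
  · exact (hf 0 1).add (hf 2 3)
  · exact (hf 0 2).add (hf 3 1)
  · exact (hf 0 3).add (hf 1 2)

lemma Quat.chi_cont {φ : R4 → F2} (hφ : Continuous φ) : Continuous (Q.chi φ) := by
  have h1 := Q.rho_cont e0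
  have h2 : ∀ x, Q.rho e0 x ≠ 0 := fun x => (Q.rho_pos' len_e0 x).ne'
  have h3 := Q.dv_cont e0
  have h4 := hat_cont (Q.ar_cont hφ)
  unfold Quat.chi Quat.nn
  exact (continuous_const.div h1 h2).mul (continuous_finsetSum _ fun k _ =>
    ((continuous_const.div h1 h2).mul (h3 k)).mul (h4 k))

lemma Quat.chi_per {φ : R4 → F2} (hφ : ∀ k x, φ (tr k x) = φ x) : Per4 (Q.chi φ) := by
  intro k x
  have h1 : ∀ v, Q.dv (tr k x) v = Q.dv x v := fun v => by rw [Quat.dv, Quat.dv, Q.T_per']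
  have h2 : ∀ v, Q.rho v (tr k x) = Q.rho v x := fun v => by rw [Quat.rho, Quat.rho, h1]
  have h3 : Q.ar φ (tr k x) = Q.ar φ x := by
    funext a c
    simp only [Quat.ar, fr]
    rw [hφ, Q.b_per a k x, Q.b_per c k x]
  simp only [Quat.chi, Quat.nn, h1, h2, h3]

lemma Quat.ar_bdd {φ : R4 → F2} (hφ : Continuous φ) (hp : ∀ k x, φ (tr k x) = φ x) :
    ∃ B : ℝ, ∀ x a c, |Q.ar φ x a c| ≤ B := by
  have h1 : ∀ p : Fin 4 × Fin 4, ∃ B : ℝ, ∀ x, ‖Q.ar φ x p.1 p.2‖ ≤ B := fun p =>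
    Per4.bdd (Q.ar_cont hφ p.1 p.2) (fun n x => by
      simp only [Quat.ar, fr]
      rw [hp, Q.b_per _ n x, Q.b_per _ n x])
  choose B hB using h1
  refine ⟨∑ p, |B p|, fun x a c => ?_⟩
  have h3 := Finset.single_le_sum (f := fun p => |B p|) (fun p _ => abs_nonneg _)
    (Finset.mem_univ (a, c))
  have h5 := hB (a, c) x
  rw [Real.norm_eq_abs] at h5
  have h6 := le_abs_self (B (a, c))
  simp only at h3 h5
  linarith

variable {Q}

/-! ## The theorem -/

lemma Sol.w4_split (hF : FRM_statement) {φ : R4 → H574.F2} (hφ : ∀ x p, φ x p p = 0) (x : R4) :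
    w4 (jac s.a s.α x) (fun p q => φ x p q) =
      (1 - ‖s.α x‖ ^ 2) * wdA (s.Fa x) (Q.ar φ x) + wdA (jz (s.z x)) (Q.ar φ x) := by
  rw [w4_jac, (hF D Q x).1 (dd s.a x) (φ x) (fun p => dd_self _ _ _) (hφ x),
    (hF D Q x).1 (imF (covL s.a s.α x)) (φ x)
      (fun p => by rw [imF_apply]; simp [mul_comm, Complex.mul_conj]) (hφ x), s.fr_imF]
  rfl

lemma Sol.int_W_abs {B C : ℝ} (hB : 1 ≤ B) (hTb : ∀ x j k, |Q.T x j k| ≤ B)
    (hρ : ∀ u, len u = 1 → ∀ x, 1 / B ≤ Q.rho u x ∧ Q.rho u x ≤ B) (hr : 1 ≤ r)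
    (h3 : r ^ 2 * s.F2 ≤ C) (h4 : r * ∫ x in cube, |1 - ‖s.α x‖ ^ 2| ≤ C) (j : Fin 3) :
    ∫ x in cube, |w4 (fun p q => dd s.a x p q) (fun p q => (tri D j).val x p q)| ≤
      C + (4 * B ^ 2 * (1 + |M|)) * (C + 1) + |M| := by
  set c4 := 4 * B ^ 2 * (1 + |M|) with hc4
  have hM := abs_nonneg M
  have h1 : ∀ x, |w4 (fun p q => dd s.a x p q) (fun p q => (tri D j).val x p q)| ≤
      r * |1 - ‖s.α x‖ ^ 2| + c4 * (r ^ 2 * ‖s.β x‖ ^ 2 + 1) + |M| := by
    intro x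
    have h5 := s.F_le hB hTb hρ hr x j
    rw [← hc4] at h5
    have h6 := s.u_le j
    set W := w4 (fun p q => dd s.a x p q) (fun p q => (tri D j).val x p q)
    have h7 : |r * (1 - ‖s.α x‖ ^ 2) * u j| ≤ r * |1 - ‖s.α x‖ ^ 2| := by
      rw [abs_mul, abs_mul, abs_of_pos s.r_pos]
      have : 0 ≤ r * |1 - ‖s.α x‖ ^ 2| := by
        have := s.r_pos
        positivity
      nlinarith
    have h8 := abs_add_le (W - r * (1 - ‖s.α x‖ ^ 2) * u j) (r * (1 - ‖s.α x‖ ^ 2) * u j)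
    rw [sub_add_cancel] at h8
    have h9 : r * ‖s.β x‖ ≤ r ^ 2 * ‖s.β x‖ ^ 2 + 1 := by
      nlinarith [sq_nonneg (r * ‖s.β x‖ - 1), sq_nonneg (r * ‖s.β x‖)]
    have h10 : c4 * (r * ‖s.β x‖) ≤ c4 * (r ^ 2 * ‖s.β x‖ ^ 2 + 1) :=
      mul_le_mul_of_nonneg_left h9 (by positivity)
    linarith
  have c3 := s.cα
  have c4' := s.cβ
  have cW := s.cW j
  refine (int_mono (by fun_prop) (by fun_prop) h1).trans ?_
  rw [integral_add (intc (by fun_prop)) (intc (by fun_prop)),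
    integral_add (intc (by fun_prop)) (intc (by fun_prop)), integral_const_mul,
    integral_const_mul, integral_add (intc (by fun_prop)) (intc (by fun_prop)),
    integral_const_mul, int_const_cube, int_const_cube]
  have h5 : c4 * ((r ^ 2 * ∫ x in cube, ‖s.β x‖ ^ 2) + 1) ≤ c4 * (C + 1) :=
    mul_le_mul_of_nonneg_left (by rw [Sol.F2] at h3; linarith) (by positivity)
  linarith

theorem POS (hEN : EN_statement) (hDIR : DIR_statement) (hFF : FF_statement)
    (hF : FRM_statement) (hA : ALG_statement) : POS_statement := by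
  intro D hG Q M r u s hr φ hφ hφp hφa hφJ ε hε
  obtain ⟨Bφ, hBφ⟩ := Q.ar_bdd hφ hφp
  obtain ⟨C, hC, hpt⟩ := pointwise Q M hF hA Bφ
  obtain ⟨C1, r₀, hen⟩ := hEN D Q M
  obtain ⟨C2, hC2, hfa⟩ := fa_le Q
  obtain ⟨B, hB, hTb, hTi, hρ⟩ := Q.exists_rho_bd
  have hdir := hDIR D hG Q M r u s hr
  have hη : Tendsto (fun n => dist (u n) e0) atTop (𝓝 0) :=
    (tendsto_iff_dist_tendsto_zero.1 hdir)
  have hθ : Tendsto (fun n => 1 / Real.sqrt (r n)) atTop (𝓝 0) := by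
    simp only [one_div]
    exact tendsto_inv_atTop_zero.comp (Real.tendsto_sqrt_atTop.comp hr)
  obtain ⟨N, hN⟩ := (hr.eventually_ge_atTop (max 1 r₀)).exists_forall_of_atTop
  set C3 := C1 + C2 * C1 with hC3
  -- bounds for large `n`
  have hbd : ∀ n, N ≤ n → 1 ≤ r n ∧ (s n).E1 ≤ |C1| + C2 * |C1| ∧
      r n * (s n).E2 ≤ |C1| + C2 * |C1| ∧ (r n) ^ 2 * (s n).F2 ≤ |C1| + C2 * |C1| ∧
      r n * (s n).F1 ≤ |C1| + C2 * |C1| ∧
      r n * ∫ x in cube, |1 - ‖(s n).α x‖ ^ 2| ≤ |C1| + C2 * |C1| ∧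
      ∫ x in cube, ∑ i, ∑ j, dd (s n).a x (e i) (e j) ^ 2 ≤ (|C1| + C2 * |C1|) * r n ∧
      ∫ x in cube, ∑ i, ∑ j, (s n).Fa x i j ^ 2 ≤ (|C1| + C2 * |C1|) * r n := by
    intro n hn
    have h1 := hN n hn
    have hr1 : 1 ≤ r n := (le_max_left _ _).trans h1
    have hr2 : r₀ ≤ r n := (le_max_right _ _).trans h1
    obtain ⟨e1, e2, e3, e4, e5, e6⟩ := hen (r n) (u n) (s n) hr2
    have hle : C1 ≤ |C1| := le_abs_self C1
    have hC1 : 0 ≤ C2 * |C1| := by positivity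
    have f1 : (s n).E1 ≤ |C1| + C2 * |C1| := by
      have : ∀ x, nz ((s n).z x) ^ 2 = ∑ c, ‖cov (s n).a (s n).α x (Q.b c x)‖ ^ 2 := fun x => by
        rw [nz_sq]; rfl
      rw [Sol.E1]
      simp_rw [this]
      linarith
    have f4 : r n * (s n).F1 ≤ |C1| + C2 * |C1| := by
      have : ∀ x, nz ((s n).y x) ^ 2 = ∑ c, ‖cov (s n).a (s n).β x (Q.b c x)‖ ^ 2 := fun x => by
        rw [nz_sq]; rfl
      rw [Sol.F1]
      simp_rw [this]
      linarith
    have f6 : ∫ x in cube, ∑ i, ∑ j, dd (s n).a x (e i) (e j) ^ 2 ≤ |C1| * r n := by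
      refine e6.trans (mul_le_mul_of_nonneg_right hle (by linarith))
    refine ⟨hr1, f1, by rw [Sol.E2]; linarith, by rw [Sol.F2]; linarith, f4, by linarith, ?_, ?_⟩
    · have : 0 ≤ C2 * |C1| * r n := by positivity
      linarith
    · have cdd : Continuous fun x => ∑ i, ∑ j, dd (s n).a x (e i) (e j) ^ 2 :=
        continuous_finsetSum _ fun i _ => continuous_finsetSum _ fun j _ =>
          (cont_dd (s n).a_smooth _ _).pow 2
      have cf := (s n).cont_Fa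
      have g1 := int_mono (f := fun x => ∑ i, ∑ j, (s n).Fa x i j ^ 2)
        (g := fun x => C2 * ∑ i, ∑ j, dd (s n).a x (e i) (e j) ^ 2) (by fun_prop)
        (continuous_const.mul cdd) (fun x => hfa (s n).a x)
      rw [integral_const_mul] at g1
      have g2 : C2 * ∫ x in cube, ∑ i, ∑ j, dd (s n).a x (e i) (e j) ^ 2 ≤
          C2 * (|C1| * r n) := mul_le_mul_of_nonneg_left f6 hC2
      have g3 : 0 ≤ |C1| * r n := by positivity
      linarith
  set C4 := |C1| + C2 * |C1| with hC4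
  have hC40 : 0 ≤ C4 := by positivity
  -- the main term tends to zero
  have hmain : Tendsto (fun n => (1 / r n) * ∫ x in cube, Q.chi φ x *
      w4 (fun p q => dd (s n).a x p q) (fun p q => dd (s n).a x p q)) atTop (𝓝 0) := by
    rw [← tendsto_add_atTop_iff_nat N]
    refine hFF D Q (fun n => r (n + N)) (fun n => (s (n + N)).a)
      (C4 + (4 * B ^ 2 * (1 + |M|)) * (C4 + 1) + |M|) (fun n => (s _).r_pos)
      ((tendsto_add_atTop_iff_nat N).2 hr) (fun n => (s _).a_smooth) (fun n => (s _).a_quasi)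
      (fun n => ?_) (fun n j => ?_) (Q.chi φ) (Q.chi_cont hφ) (Q.chi_per hφp)
    · obtain ⟨g1, g2, g3, g4, g5, g6, g7, g8⟩ := hbd (n + N) (Nat.le_add_left _ _)
      refine g7.trans (mul_le_mul_of_nonneg_right ?_ (by linarith))
      have : 0 ≤ (4 * B ^ 2 * (1 + |M|)) * (C4 + 1) := by positivity
      have := abs_nonneg M
      linarith
    · obtain ⟨g1, g2, g3, g4, g5, g6, g7, g8⟩ := hbd (n + N) (Nat.le_add_left _ _)
      exact (s (n + N)).int_W_abs hB hTb hρ g1 g4 g6 j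
  have herr : Tendsto (fun n => C * ((1 / Real.sqrt (r n) + dist (u n) e0) * (6 * C4 + 3)))
      atTop (𝓝 0) := by
    have := ((hθ.add hη).mul_const (6 * C4 + 3)).const_mul C
    simpa using this
  filter_upwards [(tendsto_order.1 hmain).1 (-(ε / 2)) (by linarith),
    (tendsto_order.1 herr).2 (ε / 2) (by linarith), (tendsto_order.1 hη).2 1 zero_lt_one,
    eventually_ge_atTop N] with n h1 h2 h3 h4
  obtain ⟨g1, g2, g3, g4, g5, g6, g7, g8⟩ := hbd n h4
  have hr0 : 0 < r n := (s n).r_pos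
  have hsq : 0 < Real.sqrt (r n) := Real.sqrt_pos.2 hr0
  have hθr : (1 / Real.sqrt (r n)) ^ 2 * r n = 1 := by
    rw [div_pow, one_pow, Real.sq_sqrt hr0.le]
    field_simp
  have hu : ∀ k, |u n k - e0 k| ≤ dist (u n) e0 := fun k => by
    rw [← Real.dist_eq]; exact dist_le_pi_dist _ _ k
  have k1 : ∀ x, 1 / r n * (Q.chi φ x * w4 (fun p q => dd (s n).a x p q)
      (fun p q => dd (s n).a x p q)) - C * (s n).Ep (dist (u n) e0) x ≤
      w4 (jac (s n).a (s n).α x) (fun p q => φ x p q) := by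
    intro x
    rw [(s n).w4_split hF hφa x, (hF D Q x).1 (dd (s n).a x) (dd (s n).a x)
      (fun p => dd_self _ _ _) (fun p => dd_self _ _ _)]
    exact hpt (r n) (u n) (s n) _ φ x g1 h3.le hu hφa hφJ (hBφ x)
  have cw : Continuous fun x => w4 (fun p q => dd (s n).a x p q) (fun p q => dd (s n).a x p q) :=
    cont_w4 (fun p q => cont_dd (s n).a_smooth p q) (fun p q => cont_dd (s n).a_smooth p q)
  have cc := Q.chi_cont hφ
  have cE := (s n).Ep_cont (dist (u n) e0)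
  have cJ : Continuous fun x => w4 (jac (s n).a (s n).α x) (fun p q => φ x p q) :=
    cont_w4 (fun p q => cont_jac (s n).a_smooth (s n).α_smooth p q)
      (fun p q => (hφ.clm_apply continuous_const).clm_apply continuous_const)
  have k2 := int_mono (f := fun x => 1 / r n * (Q.chi φ x * w4 (fun p q => dd (s n).a x p q)
      (fun p q => dd (s n).a x p q)) - C * (s n).Ep (dist (u n) e0) x) (by fun_prop) cJ k1
  rw [integral_sub (intc (by fun_prop)) (intc (by fun_prop)), integral_const_mul,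
    integral_const_mul] at k2
  have k3 := (s n).int_Ep g1 (by positivity) hθr (dist_nonneg : 0 ≤ dist (u n) e0)
    g2 g3 g4 g5 g8
  have k4 := mul_le_mul_of_nonneg_left k3 hC
  linarith

end Vale.Agent.P247.H647
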