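import Vale.Agent.P247.H647.En2
import Vale.Agent.P247.H647.Arr

/-!
# P247, Stage 2, S2: the pointwise inequality for `POS_statement`
-/

open scoped ContDiff Topology
open Set MeasureTheory Filter Metric

noncomputable section

namespace Vale.Agent.P247.H647

open Vale.Agent.P247.H74 Vale.Agent.P247.H574

/-! ## Directions -/

lemma len_eq_norm (v : Fin 3 → ℝ) : len v = ‖(WithLp.toLp 2 v : EuclideanSpace ℝ (Fin 3))‖ := by
  rw [EuclideanSpace.norm_eq, len]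
  simp

lemma len_sub_le (v w : Fin 3 → ℝ) : |len v - len w| ≤ ∑ k, |v k - w k| := by
  rw [len_eq_norm, len_eq_norm]
  refine (abs_norm_sub_norm_le _ _).trans ?_
  rw [← WithLp.toLp_sub, ← len_eq_norm]
  exact len_le_sum _

variable {D : Data} (Q : Quat D)

/-- the unit direction of `T⁻¹ u` -/
def Quat.nn (x : R4) (u : Fin 3 → ℝ) : Fin 3 → ℝ := fun k => 2 / Q.rho u x * Q.dv x u k

/-- the first direction -/
abbrev e0 : Fin 3 → ℝ := Pi.single 0 1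

lemma len_e0 : len e0 = 1 := by
  rw [len, Fin.sum_univ_three]; simp [e0]

lemma Quat.nn_len {x : R4} {u : Fin 3 → ℝ} (h : 0 < Q.rho u x) : len (Q.nn x u) = 1 := by
  have h1 : len (Q.nn x u) = 2 / Q.rho u x * len (Q.dv x u) := by
    unfold Quat.nn len
    simp_rw [mul_pow]
    rw [← Finset.mul_sum, Real.sqrt_mul (by positivity), Real.sqrt_sq (by positivity)]
  rw [h1, Quat.rho]
  rw [Quat.rho] at h
  have : 0 < len (Q.dv x u) := by linarith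
  field_simp

lemma Quat.dv_sub_le {B : ℝ} (hB : 0 ≤ B) (hTi : ∀ x j k, |(Q.T x)⁻¹ j k| ≤ B) (x : R4)
    {u v : Fin 3 → ℝ} {η : ℝ} (h : ∀ k, |u k - v k| ≤ η) (k : Fin 3) :
    |Q.dv x u k - Q.dv x v k| ≤ 3 * B * η := by
  have h1 : Q.dv x u k - Q.dv x v k = ∑ j, (Q.T x)⁻¹ k j * (u j - v j) := by
    simp only [Quat.dv, Matrix.mulVec, dotProduct]
    rw [← Finset.sum_sub_distrib]
    exact Finset.sum_congr rfl fun j _ => by ring
  rw [h1]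
  refine (Finset.abs_sum_le_sum_abs _ _).trans ?_
  calc ∑ j, |(Q.T x)⁻¹ k j * (u j - v j)| ≤ ∑ _j : Fin 3, B * η := by
        refine Finset.sum_le_sum fun j _ => ?_
        rw [abs_mul]
        exact mul_le_mul (hTi x k j) (h j) (abs_nonneg _) hB
    _ = _ := by simp; ring

lemma Quat.rho_sub_le {B : ℝ} (hB : 0 ≤ B) (hTi : ∀ x j k, |(Q.T x)⁻¹ j k| ≤ B) (x : R4)
    {u v : Fin 3 → ℝ} {η : ℝ} (h : ∀ k, |u k - v k| ≤ η) :
    |Q.rho u x - Q.rho v x| ≤ 18 * B * η := by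
  have h1 := len_sub_le (Q.dv x u) (Q.dv x v)
  have h2 : ∑ k, |Q.dv x u k - Q.dv x v k| ≤ ∑ _k : Fin 3, 3 * B * η :=
    Finset.sum_le_sum fun k _ => Q.dv_sub_le hB hTi x h k
  have h3 : ∑ _k : Fin 3, 3 * B * η = 9 * B * η := by simp; ring
  have h4 : Q.rho u x - Q.rho v x = 2 * (len (Q.dv x u) - len (Q.dv x v)) := by
    simp only [Quat.rho]; ring
  rw [h4, abs_mul, abs_two]
  linarith

lemma Quat.inv_rho_le {B : ℝ} (hB : 1 ≤ B) (hTi : ∀ x j k, |(Q.T x)⁻¹ j k| ≤ B)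
    (hρ : ∀ u, len u = 1 → ∀ x, 1 / B ≤ Q.rho u x ∧ Q.rho u x ≤ B) (x : R4)
    {u v : Fin 3 → ℝ} (hu : len u = 1) (hv : len v = 1) {η : ℝ} (h : ∀ k, |u k - v k| ≤ η) :
    |1 / Q.rho u x - 1 / Q.rho v x| ≤ 18 * B ^ 3 * η := by
  have hB0 : 0 < B := by linarith
  have h1 := (hρ u hu x).1
  have h2 := (hρ v hv x).1
  have hu0 : 0 < Q.rho u x := lt_of_lt_of_le (by positivity) h1
  have hv0 : 0 < Q.rho v x := lt_of_lt_of_le (by positivity) h2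
  have h3 := Q.rho_sub_le hB0.le hTi x h
  have h4 : 1 / Q.rho u x - 1 / Q.rho v x =
      (1 / Q.rho u x) * (1 / Q.rho v x) * (Q.rho v x - Q.rho u x) := by
    field_simp
  have h5 : 1 / Q.rho u x ≤ B := by
    rw [div_le_iff₀ hu0]; rw [div_le_iff₀ hB0] at h1; linarith
  have h6 : 1 / Q.rho v x ≤ B := by
    rw [div_le_iff₀ hv0]; rw [div_le_iff₀ hB0] at h2; linarith
  rw [h4, abs_mul, abs_mul, abs_of_pos (by positivity : 0 < 1 / Q.rho u x),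
    abs_of_pos (by positivity : 0 < 1 / Q.rho v x), abs_sub_comm]
  calc 1 / Q.rho u x * (1 / Q.rho v x) * |Q.rho u x - Q.rho v x| ≤ B * B * (18 * B * η) := by
        refine mul_le_mul (mul_le_mul h5 h6 (by positivity) hB0.le) h3 (abs_nonneg _)
          (by positivity)
    _ = _ := by ring

lemma Quat.nn_sub_le {B : ℝ} (hB : 1 ≤ B) (hTi : ∀ x j k, |(Q.T x)⁻¹ j k| ≤ B)
    (hρ : ∀ u, len u = 1 → ∀ x, 1 / B ≤ Q.rho u x ∧ Q.rho u x ≤ B) (x : R4)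
    {u v : Fin 3 → ℝ} (hu : len u = 1) (hv : len v = 1) {η : ℝ} (h : ∀ k, |u k - v k| ≤ η)
    (k : Fin 3) : |Q.nn x u k - Q.nn x v k| ≤ 24 * B ^ 2 * η := by
  have hB0 : 0 < B := by linarith
  have hη : 0 ≤ η := (abs_nonneg _).trans (h 0)
  have h1 := (hρ u hu x).1
  have h2 := (hρ v hv x).1
  have hu0 : 0 < Q.rho u x := lt_of_lt_of_le (by positivity) h1
  have hv0 : 0 < Q.rho v x := lt_of_lt_of_le (by positivity) h2
  have h5 : 1 / Q.rho u x ≤ B := by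
    rw [div_le_iff₀ hu0]; rw [div_le_iff₀ hB0] at h1; linarith
  have e1 : Q.nn x u k - Q.nn x v k = 2 * (1 / Q.rho u x) * (Q.dv x u k - Q.dv x v k) +
      (1 / Q.rho u x) * (Q.nn x v k * (Q.rho v x - Q.rho u x)) := by
    simp only [Quat.nn]
    field_simp
    ring
  have h6 := Q.dv_sub_le hB0.le hTi x h k
  have h7 := Q.rho_sub_le hB0.le hTi x h
  have h8 : |Q.nn x v k| ≤ 1 := (abs_le_len _ k).trans (Q.nn_len hv0).le
  rw [e1]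
  refine (abs_add_le _ _).trans ?_
  rw [abs_mul, abs_mul, abs_mul, abs_mul, abs_two, abs_of_pos (by positivity : 0 < 1 / Q.rho u x),
    abs_sub_comm (Q.rho v x)]
  have h9 : 2 * (1 / Q.rho u x) * |Q.dv x u k - Q.dv x v k| ≤ 2 * B * (3 * B * η) :=
    mul_le_mul (by linarith) h6 (abs_nonneg _) (by positivity)
  have h10 : 1 / Q.rho u x * (|Q.nn x v k| * |Q.rho u x - Q.rho v x|) ≤
      B * (1 * (18 * B * η)) :=
    mul_le_mul h5 (mul_le_mul h8 h7 (abs_nonneg _) zero_le_one) (by positivity) hB0.le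
  linarith

/-! ## The form -/

/-- the array of a form -/
def Quat.ar (φ : R4 → F2) (x : R4) : Fin 4 → Fin 4 → ℝ := fr (fun a => Q.b a x) fun p q => φ x p q

lemma Quat.ar_anti {φ : R4 → F2} (h : ∀ x p, φ x p p = 0) (x : R4) : Anti (Q.ar φ x) := by
  intro a c
  have h1 := h x (Q.b a x + Q.b c x)
  simp only [map_add, add_apply, h, zero_add, add_zero] at h1
  simp only [Quat.ar, fr]
  linarith

lemma Quat.ar_pos (hF : FRM_statement) {φ : R4 → F2} (hJ : ∀ x p, 0 ≤ φ x p (D.J x p)) (x : R4)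
    (hρ : 0 < Q.rho e0 x) : PosA (Q.nn x e0) (Q.ar φ x) := by
  rw [PosA_iff]
  intro w
  have hl : 0 < len (Q.dv x e0) := by rw [Quat.rho] at hρ; linarith
  have h1 : ∀ c, D.J x (Q.b c x) = ∑ d, omn (Q.nn x e0) c d • Q.b d x := by
    intro c
    have h2 := (hF D Q x).2.2 c
    have h3 : D.J x (Q.b c x) = (len (Q.dv x e0))⁻¹ •
        ∑ d, (∑ k, Q.dv x e0 k * omM k c d) • Q.b d x := by
      rw [← h2, smul_smul, inv_mul_cancel₀ hl.ne', one_smul]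
    rw [h3, Finset.smul_sum]
    refine Finset.sum_congr rfl fun d _ => ?_
    rw [smul_smul]
    congr 1
    rw [omn, Finset.mul_sum]
    refine Finset.sum_congr rfl fun k _ => ?_
    simp only [Quat.nn, Quat.rho]
    field_simp
  have h2 := hJ x (∑ a, w a • Q.b a x)
  have h3 : φ x (∑ a, w a • Q.b a x) (D.J x (∑ a, w a • Q.b a x)) =
      qf (Q.nn x e0) (Q.ar φ x) w := by
    rw [qf_eq, Finset.sum_comm]
    simp only [map_sum, map_smul, h1, sum_apply, smul_apply, smul_eq_mul]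
    refine Finset.sum_congr rfl fun c _ => ?_
    simp_rw [Finset.mul_sum]
    rw [Finset.sum_comm]
    refine Finset.sum_congr rfl fun a _ => Finset.sum_congr rfl fun d _ => ?_
    simp only [Quat.ar, fr]
    ring
  rw [← h3]
  exact h2

/-- the coefficient of `F ∧ F` -/
def Quat.chi (φ : R4 → F2) (x : R4) : ℝ :=
  1 / Q.rho e0 x * ∑ k, Q.nn x e0 k * hat (Q.ar φ x) k

/-! ## The pointwise inequality -/

variable {Q} {M r : ℝ} {u : Fin 3 → ℝ} (s : Sol Q M r u)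

/-- the curvature array -/
def Sol.Fa (x : R4) : Fin 4 → Fin 4 → ℝ := fr (fun a => Q.b a x) fun p q => dd s.a x p q

/-- the error of the pointwise inequality -/
def Sol.Ep (η : ℝ) (x : R4) : ℝ :=
  (nz (s.y x) + ‖s.β x‖) * nz (s.z x) + η * nz (s.z x) ^ 2 +
    |1 - ‖s.α x‖ ^ 2| * (r * ‖s.β x‖ + 1) + η * (r * (1 - ‖s.α x‖ ^ 2) ^ 2) +
    η / r * (∑ i, ∑ j, s.Fa x i j ^ 2) + 1 / r * (r * ‖s.β x‖ + 1) ^ 2

lemma Sol.hat_sub_le (hF : FRM_statement) {B : ℝ} (hB : 1 ≤ B) (hTb : ∀ x j k, |Q.T x j k| ≤ B)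
    (hTi : ∀ x j k, |(Q.T x)⁻¹ j k| ≤ B)
    (hρ : ∀ u, len u = 1 → ∀ x, 1 / B ≤ Q.rho u x ∧ Q.rho u x ≤ B) (hr : 1 ≤ r) (x : R4)
    (k : Fin 3) :
    |hat (s.Fa x) k - 1 / 2 * r * Q.rho u x * (1 - ‖s.α x‖ ^ 2) * Q.nn x u k| ≤
      3 * B * (4 * B ^ 2 * (1 + |M|) + |M|) * (r * ‖s.β x‖ + 1) := by
  set c4 := 4 * B ^ 2 * (1 + |M|) with hc4
  have hM := abs_nonneg M
  have hb := norm_nonneg (s.β x)
  have hρ0 := s.rho_pos x
  set W : Fin 3 → ℝ := fun j => w4 (fun p q => dd s.a x p q) (fun p q => (tri D j).val x p q)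
    with hW
  have h1 : ∀ j, W j = ∑ k, Q.T x j k * hat (s.Fa x) k := fun j =>
    (hF D Q x).2.1 (dd s.a x) (fun p => dd_self _ _ _) j
  have h2 : (Q.T x).mulVec (hat (s.Fa x)) = W := by
    funext j
    rw [h1]
    rfl
  have h3 : hat (s.Fa x) = (Q.T x)⁻¹.mulVec W := by
    rw [← h2, Matrix.mulVec_mulVec, Matrix.nonsing_inv_mul _ (Ne.isUnit (Q.T_det x)),
      Matrix.one_mulVec]
  have h4 : hat (s.Fa x) k - 1 / 2 * r * Q.rho u x * (1 - ‖s.α x‖ ^ 2) * Q.nn x u k =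
      ∑ j, (Q.T x)⁻¹ k j * (W j - r * (1 - ‖s.α x‖ ^ 2) * u j) := by
    have e1 : 1 / 2 * r * Q.rho u x * (1 - ‖s.α x‖ ^ 2) * Q.nn x u k =
        r * (1 - ‖s.α x‖ ^ 2) * Q.dv x u k := by
      simp only [Quat.nn]
      field_simp
    rw [e1, h3]
    simp only [Quat.dv, Matrix.mulVec, dotProduct]
    rw [Finset.mul_sum, ← Finset.sum_sub_distrib]
    exact Finset.sum_congr rfl fun j _ => by ring
  rw [h4]
  refine (Finset.abs_sum_le_sum_abs _ _).trans ?_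
  calc ∑ j, |(Q.T x)⁻¹ k j * (W j - r * (1 - ‖s.α x‖ ^ 2) * u j)|
      ≤ ∑ _j : Fin 3, B * ((c4 + |M|) * (r * ‖s.β x‖ + 1)) := by
        refine Finset.sum_le_sum fun j _ => ?_
        rw [abs_mul]
        refine mul_le_mul (hTi x k j) ?_ (abs_nonneg _) (by linarith)
        refine (s.F_le hB hTb hρ hr x j).trans ?_
        rw [← hc4]
        have h5 : 0 ≤ r * ‖s.β x‖ := by positivity
        have h6 : 0 ≤ c4 := by positivity
        nlinarith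
    _ = _ := by simp; ring

lemma Sol.symb_unit {B : ℝ} (hB : 1 ≤ B)
    (hρ : ∀ u, len u = 1 → ∀ x, 1 / B ≤ Q.rho u x ∧ Q.rho u x ≤ B) (x : R4) :
    ∃ f : Sp, ‖f‖ = 1 ∧ P3 (Q.nn x u) f = f ∧
      ‖symb (s.z x) f‖ ≤ B * (4 * B + |M|) * (nz (s.y x) + ‖s.β x‖) := by
  have hρx := s.rho_pos x
  have hfpos : 0 < ‖s.fp x‖ := by
    have := s.fp_norm x
    have h2 : 0 < ‖s.fp x‖ ^ 2 := by rw [this]; exact hρx
    exact lt_of_le_of_ne (norm_nonneg _) fun h => by rw [← h] at h2; simp at h2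
  set f : Sp := ((‖s.fp x‖⁻¹ : ℝ) : ℂ) • s.fp x with hf
  have hf1 : ‖f‖ = 1 := by
    rw [hf, norm_smul, Complex.norm_real, Real.norm_eq_abs, abs_of_pos (by positivity)]
    field_simp
  have hnn : Q.nn x u = (2 / Q.rho u x) • Q.dv x u := by
    funext k; simp [Quat.nn]
  have hnf : P3 (Q.nn x u) f = f := by
    have hρc : ((Q.rho u x : ℝ) : ℂ) ≠ 0 := by exact_mod_cast hρx.ne'
    rw [hnn, P3_smul, hf, map_smul, s.fp_P3, smul_smul, smul_smul]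
    congr 1
    push_cast
    field_simp
  refine ⟨f, hf1, hnf, ?_⟩
  have h5 : ‖symb (s.z x) f‖ ≤ B * ‖symb (s.z x) (s.fp x)‖ := by
    rw [hf, map_smul, norm_smul, Complex.norm_real, Real.norm_eq_abs, abs_of_pos (by positivity)]
    refine mul_le_mul_of_nonneg_right ?_ (norm_nonneg _)
    have h6 := s.fp_norm x
    have h7 := (hρ u s.u_unit x).1
    rw [← h6] at h7
    rw [inv_le_comm₀ hfpos (by linarith)]
    by_contra hlt
    push Not at hlt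
    have h8 : ‖s.fp x‖ ^ 2 < (B⁻¹) ^ 2 := by
      exact pow_lt_pow_left₀ hlt (norm_nonneg _) two_ne_zero
    have h9 : (B⁻¹) ^ 2 ≤ 1 / B := by
      rw [one_div, sq]
      have : B⁻¹ ≤ 1 := inv_le_one_of_one_le₀ hB
      have h10 : 0 < B⁻¹ := by positivity
      nlinarith
    linarith
  refine h5.trans ?_
  rw [mul_assoc]
  refine mul_le_mul_of_nonneg_left ?_ (by linarith)
  refine (s.symb_le hB hρ x).trans ?_
  have hy := nz_nonneg (s.y x)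
  have hb := norm_nonneg (s.β x)
  have hM := abs_nonneg M
  nlinarith [mul_nonneg hM hy, mul_nonneg (by linarith : (0:ℝ) ≤ B) hb]

/-- closeness of the coefficients -/
lemma chi_close {B Bφ η δ : ℝ} (hB : 1 ≤ B) (hTi : ∀ x j k, |(Q.T x)⁻¹ j k| ≤ B)
    (hρ : ∀ u, len u = 1 → ∀ x, 1 / B ≤ Q.rho u x ∧ Q.rho u x ≤ B) (hu : len u = 1)
    (hη : ∀ k, |u k - e0 k| ≤ η) (hδ : 0 ≤ δ) (φ : R4 → F2) (x : R4)
    (hbφ : ∀ a c, |Q.ar φ x a c| ≤ Bφ) :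
    |1 / Q.rho u x * (∑ k, Q.nn x u k * hat (Q.ar φ x) k + 2 * δ) - Q.chi φ x| ≤
      252 * B ^ 3 * Bφ * η + 2 * B * δ := by
  have hB0 : 0 < B := by linarith
  have hBφ : 0 ≤ Bφ := (abs_nonneg _).trans (hbφ 0 0)
  have hη0 : 0 ≤ η := (abs_nonneg _).trans (hη 0)
  have hρu : 0 < Q.rho u x := lt_of_lt_of_le (by positivity) (hρ u hu x).1
  have hρ0 : 0 < Q.rho e0 x := lt_of_lt_of_le (by positivity) (hρ e0 len_e0 x).1
  have hn0l := Q.nn_len hρ0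
  have hnd := Q.nn_sub_le hB hTi hρ x hu len_e0 hη
  have hinv : 1 / Q.rho u x ≤ B := by
    have h1 := (hρ u hu x).1
    rw [div_le_iff₀ hρu]; rw [div_le_iff₀ hB0] at h1; linarith
  have hinv0 : 0 < 1 / Q.rho u x := by positivity
  have d1 := Q.inv_rho_le hB hTi hρ x hu len_e0 hη
  have d2 : |∑ k, (Q.nn x u k - Q.nn x e0 k) * hat (Q.ar φ x) k| ≤
      144 * B ^ 2 * Bφ * η := by
    refine (Finset.abs_sum_le_sum_abs _ _).trans ?_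
    calc _ ≤ ∑ _k : Fin 3, (24 * B ^ 2 * η) * (2 * Bφ) := by
          refine Finset.sum_le_sum fun k _ => ?_
          rw [abs_mul]
          exact mul_le_mul (hnd k) (hat_le hbφ k) (abs_nonneg _) (by positivity)
      _ = _ := by simp; ring
  have d3 : |∑ k, Q.nn x e0 k * hat (Q.ar φ x) k| ≤ 6 * Bφ := by
    refine (Finset.abs_sum_le_sum_abs _ _).trans ?_
    calc _ ≤ ∑ _k : Fin 3, 1 * (2 * Bφ) := by
          refine Finset.sum_le_sum fun k _ => ?_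
          rw [abs_mul]
          exact mul_le_mul ((abs_le_len _ k).trans hn0l.le) (hat_le hbφ k) (abs_nonneg _)
            zero_le_one
      _ = _ := by simp; ring
  have e1 : 1 / Q.rho u x * (∑ k, Q.nn x u k * hat (Q.ar φ x) k + 2 * δ) - Q.chi φ x =
      1 / Q.rho u x * (∑ k, (Q.nn x u k - Q.nn x e0 k) * hat (Q.ar φ x) k) +
      (1 / Q.rho u x - 1 / Q.rho e0 x) * (∑ k, Q.nn x e0 k * hat (Q.ar φ x) k) +
      1 / Q.rho u x * (2 * δ) := by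
    simp only [Quat.chi, sub_mul, Finset.sum_sub_distrib]
    ring
  rw [e1]
  refine (abs_add_three _ _ _).trans ?_
  rw [abs_mul, abs_mul, abs_mul, abs_of_pos hinv0, abs_of_nonneg (by positivity : 0 ≤ 2 * δ)]
  have f1 : 1 / Q.rho u x * |∑ k, (Q.nn x u k - Q.nn x e0 k) * hat (Q.ar φ x) k| ≤
      B * (144 * B ^ 2 * Bφ * η) := mul_le_mul hinv d2 (abs_nonneg _) hB0.le
  have f2 : |1 / Q.rho u x - 1 / Q.rho e0 x| * |∑ k, Q.nn x e0 k * hat (Q.ar φ x) k| ≤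
      (18 * B ^ 3 * η) * (6 * Bφ) := mul_le_mul d1 d3 (abs_nonneg _) (by positivity)
  have f3 : 1 / Q.rho u x * (2 * δ) ≤ B * (2 * δ) :=
    mul_le_mul_of_nonneg_right hinv (by positivity)
  have f4 : B * (144 * B ^ 2 * Bφ * η) + (18 * B ^ 3 * η) * (6 * Bφ) + B * (2 * δ) =
      252 * B ^ 3 * Bφ * η + 2 * B * δ := by ring
  linarith

lemma main_term {r ρ χ w S X K η : ℝ} (hr : 0 < r) (hρ : 0 < ρ) (hw : |w| ≤ S)
    (h : |1 / ρ * X - χ| ≤ K * η) :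
    1 / r * (χ * w) - K * (η / r * S) ≤ 1 / (r * ρ) * X * w := by
  have hKη : 0 ≤ K * η := (abs_nonneg _).trans h
  have e1 : 1 / (r * ρ) * X * w = 1 / r * (1 / ρ * X * w) := by
    field_simp
  have e2 : |(1 / ρ * X - χ) * w| ≤ K * η * S := by
    rw [abs_mul]
    exact mul_le_mul h hw (abs_nonneg _) hKη
  have e3 := (abs_le.1 e2).1
  have e4 : χ * w - K * η * S ≤ 1 / ρ * X * w := by linarith
  have e5 := mul_le_mul_of_nonneg_left e4 (by positivity : 0 ≤ 1 / r)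
  rw [e1]
  refine le_trans (le_of_eq ?_) e5
  ring

lemma final_arith {L1 L2 L3 L4 L5 K3 T1 T2 T3 T4 T5 T6 P A J : ℝ} (hL1 : 0 ≤ L1) (hL2 : 0 ≤ L2)
    (hL3 : 0 ≤ L3) (hL4 : 0 ≤ L4) (hL5 : 0 ≤ L5) (hK3 : 0 ≤ K3) (t1 : 0 ≤ T1) (t2 : 0 ≤ T2)
    (t3 : 0 ≤ T3) (t4 : 0 ≤ T4) (t5 : 0 ≤ T5) (t6 : 0 ≤ T6)
    (h1 : P - K3 * T5 - (L3 * T3 + L4 * T6 + L5 * T4) ≤ A) (h2 : -(L1 * T1) - L2 * T2 ≤ J) :
    P - (L1 + L2 + L3 + L4 + L5 + K3) * (T1 + T2 + T3 + T4 + T5 + T6) ≤ A + J := by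
  set L := L1 + L2 + L3 + L4 + L5 + K3 with hL
  have g1 : L1 * T1 ≤ L * T1 := mul_le_mul_of_nonneg_right (by linarith) t1
  have g2 : L2 * T2 ≤ L * T2 := mul_le_mul_of_nonneg_right (by linarith) t2
  have g3 : L3 * T3 ≤ L * T3 := mul_le_mul_of_nonneg_right (by linarith) t3
  have g4 : L5 * T4 ≤ L * T4 := mul_le_mul_of_nonneg_right (by linarith) t4
  have g5 : K3 * T5 ≤ L * T5 := mul_le_mul_of_nonneg_right (by linarith) t5
  have g6 : L4 * T6 ≤ L * T6 := mul_le_mul_of_nonneg_right (by linarith) t6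
  have g7 : L * (T1 + T2 + T3 + T4 + T5 + T6) = L * T1 + L * T2 + L * T3 + L * T4 + L * T5 +
      L * T6 := by ring
  rw [g7]
  linarith

lemma curv_bd {Bφ δ K1 K2 B r ρ q q2 m η : ℝ} (hBφ : 0 ≤ Bφ) (hδ1 : δ ≤ K1)
    (hδη : δ = K1 * η) (hη : 0 ≤ η) (hK1 : 0 ≤ K1) (hK2 : 0 ≤ K2) (hr : 0 < r) (hρ : 0 < ρ)
    (hinv : 1 / ρ ≤ B) (hρB : ρ ≤ B) (hq : 0 ≤ q) (hq2 : 0 ≤ q2) (hm : 0 ≤ m) :
    (12 * Bφ + 12 * δ) * (q * (K2 * m)) + (9 * Bφ + 3 * δ) / (r * ρ) * (K2 * m) ^ 2 +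
      δ * (1 / 2 * r * ρ * q2) ≤ (12 * Bφ + 12 * K1) * K2 * (q * m) +
      (9 * Bφ + 3 * K1) * B * K2 ^ 2 * (1 / r * m ^ 2) + K1 * B * (η * (r * q2)) := by
  have hB0 : 0 ≤ B := hρ.le.trans hρB
  have c2 : (12 * Bφ + 12 * δ) * (q * (K2 * m)) ≤ (12 * Bφ + 12 * K1) * K2 * (q * m) := by
    calc _ ≤ (12 * Bφ + 12 * K1) * (q * (K2 * m)) :=
          mul_le_mul_of_nonneg_right (by linarith) (by positivity)
      _ = _ := by ring
  have c3 : (9 * Bφ + 3 * δ) / (r * ρ) * (K2 * m) ^ 2 ≤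
      (9 * Bφ + 3 * K1) * B * K2 ^ 2 * (1 / r * m ^ 2) := by
    have e1 : (9 * Bφ + 3 * δ) / (r * ρ) * (K2 * m) ^ 2 =
        (9 * Bφ + 3 * δ) * (1 / ρ) * (K2 ^ 2 * (1 / r * m ^ 2)) := by
      field_simp
    rw [e1]
    calc _ ≤ (9 * Bφ + 3 * K1) * B * (K2 ^ 2 * (1 / r * m ^ 2)) :=
          mul_le_mul_of_nonneg_right (mul_le_mul (by linarith) hinv (by positivity)
            (by positivity)) (by positivity)
      _ = _ := by ring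
  have c4 : δ * (1 / 2 * r * ρ * q2) ≤ K1 * B * (η * (r * q2)) := by
    have e1 : δ * (1 / 2 * r * ρ * q2) = (1 / 2 * ρ) * (K1 * (η * (r * q2))) := by
      rw [hδη]; ring
    rw [e1]
    calc _ ≤ B * (K1 * (η * (r * q2))) :=
          mul_le_mul_of_nonneg_right (by linarith) (by positivity)
      _ = _ := by ring
  linarith

/-- the curvature part, for a solution -/
lemma Sol.curv_ineq (hF : FRM_statement) (hA : ALG_statement) {B Bφ η : ℝ} (hB : 1 ≤ B)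
    (hTb : ∀ x j k, |Q.T x j k| ≤ B) (hTi : ∀ x j k, |(Q.T x)⁻¹ j k| ≤ B)
    (hρ : ∀ u, len u = 1 → ∀ x, 1 / B ≤ Q.rho u x ∧ Q.rho u x ≤ B) (φ : R4 → H574.F2) (x : R4)
    (hr : 1 ≤ r) (hη1 : η ≤ 1) (hη : ∀ k, |u k - e0 k| ≤ η) (hanti : Anti (Q.ar φ x))
    (hbφ : ∀ a c, |Q.ar φ x a c| ≤ Bφ)
    (hpos : PosA (Q.nn x u) (Q.ar φ x + (16 * Bφ * (24 * B ^ 2 * η)) • omn (Q.nn x u))) :
    1 / r * (Q.chi φ x * wdA (s.Fa x) (s.Fa x)) - (252 * B ^ 3 * Bφ + 2 * B *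
        (16 * Bφ * (24 * B ^ 2))) * (η / r * (∑ i, ∑ j, s.Fa x i j ^ 2)) -
      ((12 * Bφ + 12 * (16 * Bφ * (24 * B ^ 2))) * (3 * B * (4 * B ^ 2 * (1 + |M|) + |M|)) *
        (|1 - ‖s.α x‖ ^ 2| * (r * ‖s.β x‖ + 1)) +
      (9 * Bφ + 3 * (16 * Bφ * (24 * B ^ 2))) * B * (3 * B * (4 * B ^ 2 * (1 + |M|) + |M|)) ^ 2 *
        (1 / r * (r * ‖s.β x‖ + 1) ^ 2) +
      (16 * Bφ * (24 * B ^ 2)) * B * (η * (r * (1 - ‖s.α x‖ ^ 2) ^ 2))) ≤
      (1 - ‖s.α x‖ ^ 2) * wdA (s.Fa x) (Q.ar φ x) := by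
  have hr0 : 0 < r := by linarith
  have hη0 : 0 ≤ η := (abs_nonneg _).trans (hη 0)
  have hM := abs_nonneg M
  have hBφ : 0 ≤ Bφ := (abs_nonneg _).trans (hbφ 0 0)
  have hB0 : 0 < B := by linarith
  have hρu := s.rho_pos x
  have hnl := Q.nn_len hρu
  have hinv : 1 / Q.rho u x ≤ B := by
    have h1 := (hρ u s.u_unit x).1
    rw [div_le_iff₀ hρu]; rw [div_le_iff₀ hB0] at h1; linarith
  have hbe := norm_nonneg (s.β x)
  set K1 := 16 * Bφ * (24 * B ^ 2) with hK1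
  set K2 := 3 * B * (4 * B ^ 2 * (1 + |M|) + |M|) with hK2
  have hK10 : 0 ≤ K1 := by positivity
  have hK20 : 0 ≤ K2 := by positivity
  have hδη : 16 * Bφ * (24 * B ^ 2 * η) = K1 * η := by rw [hK1]; ring
  rw [hδη] at hpos
  have hδ0 : 0 ≤ K1 * η := by positivity
  have hδ1 : K1 * η ≤ K1 := by nlinarith
  have hFa : Anti (s.Fa x) := fun a c => fr_anti s.a x _ a c
  have c1 := curv_part hA (Φ := s.Fa x) (s := 1 - ‖s.α x‖ ^ 2) hδ0 hr0 hρu hnl hFa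
    hanti hbφ hpos (fun k => s.hat_sub_le hF hB hTb hTi hρ hr x k)
  rw [← hK2] at c1
  have c2 := curv_bd (q := |1 - ‖s.α x‖ ^ 2|) (q2 := (1 - ‖s.α x‖ ^ 2) ^ 2)
    (m := r * ‖s.β x‖ + 1) hBφ hδ1 rfl hη0 hK10 hK20 hr0 hρu hinv (hρ u s.u_unit x).2
    (abs_nonneg _) (sq_nonneg _) (by positivity)
  have m1 := chi_close hB hTi hρ s.u_unit hη hδ0 φ x hbφ
  have m2 : 252 * B ^ 3 * Bφ * η + 2 * B * (K1 * η) = (252 * B ^ 3 * Bφ + 2 * B * K1) * η := by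
    ring
  rw [m2] at m1
  have m3 := main_term hr0 hρu (wdA_self_le (s.Fa x)) m1
  linarith

/-- the Jacobian part, for a solution -/
lemma Sol.jac_ineq {CA : ℝ} (hCA : 0 ≤ CA) (hjac : ∀ (n : Fin 3 → ℝ) (ζ : Fin 4 → ℂ) (f : Sp)
    (φ : Fin 4 → Fin 4 → ℝ) (B δ : ℝ), 0 ≤ δ → len n = 1 → ‖f‖ = 1 → P3 n f = f → Anti φ →
    (∀ a c, |φ a c| ≤ B) → PosA n (φ + δ • omn n) →
    -(CA * (B + δ) * (‖symb ζ f‖ * nz ζ)) - 12 * δ * nz ζ ^ 2 ≤ wdA (jz ζ) φ)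
    {B Bφ η : ℝ} (hB : 1 ≤ B)
    (hρ : ∀ u, len u = 1 → ∀ x, 1 / B ≤ Q.rho u x ∧ Q.rho u x ≤ B) (φ : R4 → H574.F2) (x : R4)
    (hη1 : η ≤ 1) (hη0 : 0 ≤ η) (hanti : Anti (Q.ar φ x))
    (hbφ : ∀ a c, |Q.ar φ x a c| ≤ Bφ)
    (hpos : PosA (Q.nn x u) (Q.ar φ x + (16 * Bφ * (24 * B ^ 2 * η)) • omn (Q.nn x u))) :
    -(CA * (Bφ + 16 * Bφ * (24 * B ^ 2)) * (B * (4 * B + |M|)) *
      ((nz (s.y x) + ‖s.β x‖) * nz (s.z x))) - 12 * (16 * Bφ * (24 * B ^ 2)) *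
      (η * nz (s.z x) ^ 2) ≤ wdA (jz (s.z x)) (Q.ar φ x) := by
  have hM := abs_nonneg M
  have hBφ : 0 ≤ Bφ := (abs_nonneg _).trans (hbφ 0 0)
  have hB0 : 0 < B := by linarith
  have hρu := s.rho_pos x
  have hnl := Q.nn_len hρu
  have hbe := norm_nonneg (s.β x)
  have hz := nz_nonneg (s.z x)
  have hy := nz_nonneg (s.y x)
  set K1 := 16 * Bφ * (24 * B ^ 2) with hK1
  have hK10 : 0 ≤ K1 := by positivity
  have hδη : 16 * Bφ * (24 * B ^ 2 * η) = K1 * η := by rw [hK1]; ring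
  rw [hδη] at hpos
  have hδ0 : 0 ≤ K1 * η := by positivity
  have hδ1 : K1 * η ≤ K1 := by nlinarith
  obtain ⟨f, hf1, hfn, hfs⟩ := s.symb_unit hB hρ x
  have j1 := hjac (Q.nn x u) (s.z x) f (Q.ar φ x) Bφ (K1 * η) hδ0 hnl hf1 hfn hanti hbφ hpos
  have j2 : CA * (Bφ + K1 * η) * (‖symb (s.z x) f‖ * nz (s.z x)) ≤
      CA * (Bφ + K1) * (B * (4 * B + |M|)) * ((nz (s.y x) + ‖s.β x‖) * nz (s.z x)) := by
    calc CA * (Bφ + K1 * η) * (‖symb (s.z x) f‖ * nz (s.z x)) ≤ CA * (Bφ + K1) *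
          (B * (4 * B + |M|) * (nz (s.y x) + ‖s.β x‖) * nz (s.z x)) := by
          refine mul_le_mul (mul_le_mul_of_nonneg_left (by linarith) hCA)
            (mul_le_mul_of_nonneg_right hfs hz) (by positivity) (by positivity)
      _ = _ := by ring
  linarith

/-- **The pointwise inequality.** -/
lemma pointwise (Q : Quat D) (M : ℝ) (hF : FRM_statement) (hA : ALG_statement) (Bφ : ℝ) :
    ∃ C : ℝ, 0 ≤ C ∧ ∀ (r : ℝ) (u : Fin 3 → ℝ) (s : Sol Q M r u) (η : ℝ) (φ : R4 → F2) (x : R4),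
      1 ≤ r → η ≤ 1 → (∀ k, |u k - e0 k| ≤ η) → (∀ x p, φ x p p = 0) →
      (∀ x p, 0 ≤ φ x p (D.J x p)) → (∀ a c, |Q.ar φ x a c| ≤ Bφ) →
      1 / r * (Q.chi φ x * wdA (s.Fa x) (s.Fa x)) - C * s.Ep η x ≤
        (1 - ‖s.α x‖ ^ 2) * wdA (s.Fa x) (Q.ar φ x) + wdA (jz (s.z x)) (Q.ar φ x) := by
  obtain ⟨B, hB, hTb, hTi, hρ⟩ := Q.exists_rho_bd
  obtain ⟨CA, hCA, hjac⟩ := jac_part hA
  have hM := abs_nonneg M
  have hBφ := abs_nonneg Bφ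
  have hB0 : 0 < B := by linarith
  obtain ⟨L1, hL1⟩ : ∃ L, L = CA * (|Bφ| + 16 * |Bφ| * (24 * B ^ 2)) * (B * (4 * B + |M|)) :=
    ⟨_, rfl⟩
  obtain ⟨L2, hL2⟩ : ∃ L, L = 12 * (16 * |Bφ| * (24 * B ^ 2)) := ⟨_, rfl⟩
  obtain ⟨L3, hL3⟩ : ∃ L, L = (12 * |Bφ| + 12 * (16 * |Bφ| * (24 * B ^ 2))) *
    (3 * B * (4 * B ^ 2 * (1 + |M|) + |M|)) := ⟨_, rfl⟩
  obtain ⟨L4, hL4⟩ : ∃ L, L = (9 * |Bφ| + 3 * (16 * |Bφ| * (24 * B ^ 2))) * B *
    (3 * B * (4 * B ^ 2 * (1 + |M|) + |M|)) ^ 2 := ⟨_, rfl⟩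
  obtain ⟨L5, hL5⟩ : ∃ L, L = (16 * |Bφ| * (24 * B ^ 2)) * B := ⟨_, rfl⟩
  obtain ⟨K3, hK3⟩ : ∃ L, L = 252 * B ^ 3 * |Bφ| + 2 * B * (16 * |Bφ| * (24 * B ^ 2)) :=
    ⟨_, rfl⟩
  have p1 : 0 ≤ L1 := by rw [hL1]; positivity
  have p2 : 0 ≤ L2 := by rw [hL2]; positivity
  have p3 : 0 ≤ L3 := by rw [hL3]; positivity
  have p4 : 0 ≤ L4 := by rw [hL4]; positivity
  have p5 : 0 ≤ L5 := by rw [hL5]; positivity
  have p6 : 0 ≤ K3 := by rw [hK3]; positivity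
  refine ⟨L1 + L2 + L3 + L4 + L5 + K3, by positivity, ?_⟩
  intro r u s η φ x hr hη1 hη hφ hJ hb
  have hr0 : 0 < r := by linarith
  have hη0 : 0 ≤ η := (abs_nonneg _).trans (hη 0)
  have hρ0 : 0 < Q.rho e0 x := lt_of_lt_of_le (by positivity) (hρ e0 len_e0 x).1
  have hρu := s.rho_pos x
  have hnl := Q.nn_len hρu
  have hnd := Q.nn_sub_le hB hTi hρ x s.u_unit len_e0 hη
  have hbφ : ∀ a c, |Q.ar φ x a c| ≤ |Bφ| := fun a c => (hb a c).trans (le_abs_self _)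
  have hpos := posA_shift (n := Q.nn x u) (by positivity : 0 ≤ 24 * B ^ 2 * η)
    (by rw [← len_sq, hnl, one_pow]) hnd hbφ (Q.ar_pos hF hJ x hρ0)
  have hanti := Q.ar_anti hφ x
  have hz := nz_nonneg (s.z x)
  have hy := nz_nonneg (s.y x)
  have hbe := norm_nonneg (s.β x)
  have hq := abs_nonneg (1 - ‖s.α x‖ ^ 2)
  have h1 := s.curv_ineq hF hA hB hTb hTi hρ φ x hr hη1 hη hanti hbφ hpos
  have h2 := s.jac_ineq hCA hjac hB hρ φ x hη1 hη0 hanti hbφ hpos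
  rw [← hL3, ← hL4, ← hL5, ← hK3] at h1
  rw [← hL1, ← hL2] at h2
  have t5 : 0 ≤ ∑ i, ∑ j, s.Fa x i j ^ 2 :=
    Finset.sum_nonneg fun _ _ => Finset.sum_nonneg fun _ _ => sq_nonneg _
  have t1 : 0 ≤ (nz (s.y x) + ‖s.β x‖) * nz (s.z x) := by positivity
  have t2 : 0 ≤ η * nz (s.z x) ^ 2 := by positivity
  have t3 : 0 ≤ |1 - ‖s.α x‖ ^ 2| * (r * ‖s.β x‖ + 1) := by positivity
  have t4 : 0 ≤ η * (r * (1 - ‖s.α x‖ ^ 2) ^ 2) := by positivity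
  have t5' : 0 ≤ η / r * (∑ i, ∑ j, s.Fa x i j ^ 2) := by positivity
  have t6 : 0 ≤ 1 / r * (r * ‖s.β x‖ + 1) ^ 2 := by positivity
  exact final_arith p1 p2 p3 p4 p5 p6 t1 t2 t3 t4 t5' t6 h1 h2

end Vale.Agent.P247.H647
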