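import Vale.Agent.P247.H647.Pos
import Vale.Agent.P247.H647.Alg
import Vale.Agent.P247.H726.Top
import Vale.Agent.P247.H726.Frm
import Vale.Agent.P247.H880.IL
import Vale.Agent.P247.H869.Sol
import Vale.Agent.P247.H350.FF6
import Vale.Agent.P247.H558.Beta
import Vale.Agent.P247.H558.Max2
import Vale.Agent.P247.H329.T9
import Vale.Agent.P247.H332.Dir
import Vale.Agent.P247.H103.Asms

/-!
# P247, Stage 2, S2: from large Seiberg-Witten solutions to `Higgs D`
-/

open scoped ContDiff Topology
open Set MeasureTheory Filter Metric

noncomputable section

namespace Vale.Agent.P247.H647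

open Vale.Agent.P247.H74 Vale.Agent.P247.H574

theorem frm : FRM_statement := H726.frm
theorem topS : TOP_statement := H726.top
theorem ilS : IL_statement := H880.IL
theorem maxS : MAX_statement := H558.MAX ilS frm
theorem triS : TRI_statement := H329.TRI
theorem solS : SOL_statement := H869.sol maxS triS
theorem betaS : BETA_statement := H558.BETA ilS frm
theorem enS : EN_statement := EN betaS topS frm ALG
theorem dirS : DIR_statement := H332.Dir.DIR betaS topS frm ALG
theorem ffS : FF_statement := H350.FF.ff frm
theorem posS : POS_statement := POS enS dirS ffS frm ALG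

/-- **S2.** Solutions of the Seiberg-Witten system of arbitrary size give a Higgs sequence. -/
theorem S2 : S2_statement := H103.asms maxS solS enS posS

/-- S1 is enough. -/
theorem higgs (h : S1_statement) : HIGGS_statement := fun D hG => by
  obtain ⟨Q, Z, hZ, hZp, hR⟩ := h D hG
  exact S2 D hG Q Z hZ hZp hR

end Vale.Agent.P247.H647
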